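import Vale.Agent.P216.V609.NDga
import Mathlib.Algebra.Colimit.DirectLimit

/-!
# P216-V: direct limits of dgas (the file `H285V/Colim.lean` for `NDga`)
-/

namespace Vale.Agent.P216.H929V

universe u v

open Vale.Agent.P216.V609 (NDga)

/-- a directed system of dgas -/
structure SysN (k : Type) [Field k] {ι : Type} [Preorder ι] (G : ι → Type u) [∀ i, Ring (G i)]
    [∀ i, Algebra k (G i)] where
  C : ∀ i, NDga k (G i)
  f : ∀ i j, i ≤ j → NDga.Hom (C i) (C j)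
  map_self : ∀ i x, (f i i le_rfl).f x = x
  map_map : ∀ i j l (hij : i ≤ j) (hjl : j ≤ l) x,
    (f j l hjl).f ((f i j hij).f x) = (f i l (hij.trans hjl)).f x

namespace SysN

variable {k : Type} [Field k] {ι : Type} [Preorder ι] {G : ι → Type u} [∀ i, Ring (G i)]
  [∀ i, Algebra k (G i)] (S : SysN k G)

/-- the transition maps -/
abbrev map : ∀ i j, i ≤ j → (G i →ₐ[k] G j) := fun i j h => (S.f i j h).f

instance dirSys : DirectedSystem G (fun i j h => ⇑(S.map i j h)) where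
  map_self i x := S.map_self i x
  map_map _ _ _ _ _ x := S.map_map _ _ _ _ _ x

variable [IsDirectedOrder ι] [Nonempty ι]

/-- the direct limit -/
def L : Type u := DirectLimit G S.map

noncomputable instance : Ring S.L := inferInstanceAs (Ring (DirectLimit G S.map))

noncomputable instance : Algebra k S.L := inferInstanceAs (Algebra k (DirectLimit G S.map))

/-- the germ of an element -/
noncomputable def of (i : ι) : G i →ₐ[k] S.L := DirectLimit.Algebra.of (R := k) G S.map i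

theorem of_map {i j : ι} (h : i ≤ j) (x : G i) : S.of j (S.map i j h x) = S.of i x :=
  DirectLimit.Algebra.of_f (R := k) (G := G) (f := S.map) h x

theorem exists_of (z : S.L) : ∃ i x, z = S.of i x := DirectLimit.exists_eq_mk (f := S.map) z

theorem exists_of₂ (z w : S.L) : ∃ i x y, z = S.of i x ∧ w = S.of i y :=
  DirectLimit.exists_eq_mk₂ (f := S.map) z w

/-- representatives at a late index -/
theorem exists_of_ge (z : S.L) (i : ι) : ∃ j, i ≤ j ∧ ∃ x, z = S.of j x := by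
  obtain ⟨j, x, rfl⟩ := S.exists_of z
  obtain ⟨l, hi, hj⟩ := directed_of (· ≤ ·) i j
  exact ⟨l, hi, S.map j l hj x, (S.of_map hj x).symm⟩

theorem of_eq_of {i j : ι} {x : G i} {y : G j} :
    S.of i x = S.of j y ↔ ∃ l, ∃ (hi : i ≤ l) (hj : j ≤ l), S.map i l hi x = S.map j l hj y := by
  constructor
  · intro h
    have h1 : (DirectLimit.setoid (F := G) S.map).r ⟨i, x⟩ ⟨j, y⟩ := Quotient.exact h
    obtain ⟨l, hi, hj, h2⟩ := h1
    exact ⟨l, hi, hj, h2⟩
  · rintro ⟨l, hi, hj, h⟩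
    rw [← S.of_map hi, h, S.of_map hj]

theorem of_eq_zero {i : ι} {x : G i} :
    S.of i x = 0 ↔ ∃ l, ∃ hi : i ≤ l, S.map i l hi x = 0 := by
  constructor
  · intro h
    have h1 : S.of i x = S.of i 0 := by rw [h, _root_.map_zero]
    obtain ⟨l, hi, hj, h2⟩ := S.of_eq_of.1 h1
    exact ⟨l, hi, by rw [h2, _root_.map_zero]⟩
  · rintro ⟨l, hi, h⟩
    rw [← S.of_map hi, h, _root_.map_zero]

theorem of_inj_iff {i : ι} {x y : G i} :
    S.of i x = S.of i y ↔ ∃ l, ∃ hi : i ≤ l, S.map i l hi x = S.map i l hi y := by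
  rw [← sub_eq_zero, ← map_sub, S.of_eq_zero]
  refine exists_congr fun l => exists_congr fun hi => ?_
  rw [map_sub, sub_eq_zero]

section Lift

variable {P : Type*} [Ring P] [Algebra k P]

/-- maps out of the limit -/
noncomputable def lift (g : ∀ i, G i →ₐ[k] P) (hg : ∀ i j h x, g j (S.map i j h x) = g i x) :
    S.L →ₐ[k] P := DirectLimit.Algebra.lift (R := k) G S.map P g hg

theorem lift_of (g : ∀ i, G i →ₐ[k] P) (hg : ∀ i j h x, g j (S.map i j h x) = g i x) (i : ι)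
    (x : G i) : S.lift g hg (S.of i x) = g i x := rfl

end Lift

section LiftL

variable {P : Type*} [AddCommGroup P] [Module k P]

/-- linear maps out of the limit -/
noncomputable def liftL (g : ∀ i, G i →ₗ[k] P) (hg : ∀ i j h x, g j (S.map i j h x) = g i x) :
    S.L →ₗ[k] P := DirectLimit.Module.lift (R := k) ι G S.map g hg

theorem liftL_of (g : ∀ i, G i →ₗ[k] P) (hg : ∀ i j h x, g j (S.map i j h x) = g i x) (i : ι)
    (x : G i) : S.liftL g hg (S.of i x) = g i x := rfl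

end LiftL

/-- the differential -/
noncomputable def d : S.L →ₗ[k] S.L :=
  S.liftL (fun i => (S.of i).toLinearMap ∘ₗ (S.C i).d) fun i j h x => by
    show S.of j ((S.C j).d (S.map i j h x)) = S.of i ((S.C i).d x)
    rw [← S.of_map h, ← (S.f i j h).d]

theorem d_of (i : ι) (x : G i) : S.d (S.of i x) = S.of i ((S.C i).d x) := rfl

/-- the sign involution -/
noncomputable def sg : S.L →ₐ[k] S.L :=
  S.lift (fun i => (S.of i).comp (S.C i).sg) fun i j h x => by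
    show S.of j ((S.C j).sg (S.map i j h x)) = S.of i ((S.C i).sg x)
    rw [← S.of_map h, ← (S.f i j h).sg]

theorem sg_of (i : ι) (x : G i) : S.sg (S.of i x) = S.of i ((S.C i).sg x) := rfl

/-- the degree -/
def deg (q : ℕ) : Submodule k S.L where
  carrier := {z | ∃ i, ∃ x ∈ (S.C i).deg q, z = S.of i x}
  add_mem' := by
    rintro _ _ ⟨i, x, hx, rfl⟩ ⟨j, y, hy, rfl⟩
    obtain ⟨l, hi, hj⟩ := directed_of (· ≤ ·) i j
    exact ⟨l, S.map i l hi x + S.map j l hj y,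
      Submodule.add_mem _ ((S.f i l hi).deg hx) ((S.f j l hj).deg hy), by
        rw [map_add, S.of_map, S.of_map]⟩
  zero_mem' := ⟨Classical.arbitrary ι, 0, Submodule.zero_mem _, (_root_.map_zero _).symm⟩
  smul_mem' := by
    rintro c _ ⟨i, x, hx, rfl⟩
    exact ⟨i, c • x, Submodule.smul_mem _ _ hx, (map_smul _ _ _).symm⟩

theorem mem_deg' {q : ℕ} {z : S.L} : z ∈ S.deg q ↔ ∃ i, ∃ x ∈ (S.C i).deg q, z = S.of i x :=
  Iff.rfl

theorem of_mem_deg {q : ℕ} {i : ι} {x : G i} (h : x ∈ (S.C i).deg q) : S.of i x ∈ S.deg q :=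
  ⟨i, x, h, rfl⟩

theorem mem_deg {q : ℕ} {i : ι} {x : G i} :
    S.of i x ∈ S.deg q ↔ ∃ l, ∃ hi : i ≤ l, S.map i l hi x ∈ (S.C l).deg q := by
  constructor
  · rintro ⟨j, y, hy, h⟩
    obtain ⟨l, hi, hj, h2⟩ := S.of_eq_of.1 h
    refine ⟨l, hi, ?_⟩
    rw [h2]
    exact (S.f j l hj).deg hy
  · rintro ⟨l, hi, h⟩
    rw [← S.of_map hi]
    exact S.of_mem_deg h

/-- **The direct limit of dgas.** -/
noncomputable def ndga : NDga k S.L where
  deg := S.deg
  sg := S.sg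
  d := S.d
  one_mem := ⟨Classical.arbitrary ι, 1, (S.C _).one_mem, (map_one _).symm⟩
  mul_mem := by
    rintro p q _ _ ⟨i, x, hx, rfl⟩ ⟨j, y, hy, rfl⟩
    obtain ⟨l, hi, hj⟩ := directed_of (· ≤ ·) i j
    exact ⟨l, S.map i l hi x * S.map j l hj y,
      (S.C l).mul_mem ((S.f i l hi).deg hx) ((S.f j l hj).deg hy), by
        rw [map_mul, S.of_map, S.of_map]⟩
  sg_deg := by
    rintro p _ ⟨i, x, hx, rfl⟩
    rw [S.sg_of, (S.C i).sg_deg hx, map_smul]
  sg_sg z := by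
    obtain ⟨i, x, rfl⟩ := S.exists_of z
    rw [S.sg_of, S.sg_of, (S.C i).sg_sg]
  sg_d z := by
    obtain ⟨i, x, rfl⟩ := S.exists_of z
    rw [S.d_of, S.sg_of, S.sg_of, S.d_of, (S.C i).sg_d, map_neg]
  d_mem := by
    rintro p _ ⟨i, x, hx, rfl⟩
    exact ⟨i, (S.C i).d x, (S.C i).d_mem hx, rfl⟩
  d_d z := by
    obtain ⟨i, x, rfl⟩ := S.exists_of z
    rw [S.d_of, S.d_of, (S.C i).d_d, _root_.map_zero]
  leib a b := by
    obtain ⟨i, x, y, rfl, rfl⟩ := S.exists_of₂ a b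
    rw [← map_mul, S.d_of, S.d_of, S.d_of, S.sg_of, (S.C i).leib, map_add, map_mul, map_mul]

/-- the map to the limit -/
noncomputable def ofHom (i : ι) : NDga.Hom (S.C i) S.ndga where
  f := S.of i
  deg h := S.of_mem_deg h
  sg _ := rfl
  d _ := rfl

theorem mem_Z {q : ℕ} {i : ι} {x : G i} :
    S.of i x ∈ S.ndga.Z q ↔ ∃ l, ∃ hi : i ≤ l, S.map i l hi x ∈ (S.C l).Z q := by
  constructor
  · rintro ⟨h1, h2⟩
    obtain ⟨j, hj, h3⟩ := S.mem_deg.1 h1
    have h4 : S.of i ((S.C i).d x) = 0 := h2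
    obtain ⟨l, hl, h5⟩ := S.of_eq_zero.1 h4
    obtain ⟨m, hm, hm'⟩ := directed_of (· ≤ ·) j l
    refine ⟨m, hj.trans hm, ?_, ?_⟩
    · rw [← S.map_map _ _ _ hj hm]
      exact (S.f j m hm).deg h3
    · show (S.C m).d (S.map i m _ x) = 0
      rw [← (S.f i m _).d, ← S.map_map _ _ _ hl hm']
      show (S.map l m hm') (S.map i l hl ((S.C i).d x)) = 0
      rw [h5, _root_.map_zero]
  · rintro ⟨l, hi, h⟩
    rw [← S.of_map hi]
    exact (S.ofHom l).map_Z h

theorem exists_Z {q : ℕ} {z : S.L} (hz : z ∈ S.ndga.Z q) (i : ι) :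
    ∃ j, i ≤ j ∧ ∃ x ∈ (S.C j).Z q, z = S.of j x := by
  obtain ⟨j, hj, x, rfl⟩ := S.exists_of_ge z i
  obtain ⟨l, hl, h⟩ := S.mem_Z.1 hz
  exact ⟨l, hj.trans hl, S.map j l hl x, h, (S.of_map hl x).symm⟩

theorem mem_B {q : ℕ} {i : ι} {x : G i} :
    S.of i x ∈ S.ndga.B q ↔ ∃ l, ∃ hi : i ≤ l, S.map i l hi x ∈ (S.C l).B q := by
  constructor
  · intro h
    cases q with
    | zero =>
      have h1 : S.of i x = 0 := h
      obtain ⟨l, hi, h2⟩ := S.of_eq_zero.1 h1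
      exact ⟨l, hi, h2⟩
    | succ q =>
      obtain ⟨_, ⟨j, y, hy, rfl⟩, h⟩ := h
      have h1 : S.of j ((S.C j).d y) = S.of i x := h
      obtain ⟨l, hj, hi, h2⟩ := S.of_eq_of.1 h1
      refine ⟨l, hi, ?_⟩
      rw [← h2, (S.f j l hj).d]
      exact ⟨_, (S.f j l hj).deg hy, rfl⟩
  · rintro ⟨l, hi, h⟩
    rw [← S.of_map hi]
    exact (S.ofHom l).map_B h

section Hom

variable {ι' : Type} [Preorder ι'] {G' : ι' → Type v} [∀ i, Ring (G' i)] [∀ i, Algebra k (G' i)]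
  (S' : SysN k G') [IsDirectedOrder ι'] [Nonempty ι']

/-- maps of limits -/
noncomputable def hom (σ : ι → ι') (h : ∀ i, NDga.Hom (S.C i) (S'.C (σ i)))
    (hc : ∀ i j (hij : i ≤ j) x, ∃ l, ∃ (h1 : σ i ≤ l) (h2 : σ j ≤ l),
      S'.map (σ j) l h2 ((h j).f (S.map i j hij x)) = S'.map (σ i) l h1 ((h i).f x)) :
    NDga.Hom S.ndga S'.ndga where
  f := S.lift (fun i => (S'.of (σ i)).comp (h i).f) fun i j hij x => by
    show S'.of (σ j) ((h j).f (S.map i j hij x)) = S'.of (σ i) ((h i).f x)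
    obtain ⟨l, h1, h2, h3⟩ := hc i j hij x
    exact S'.of_eq_of.2 ⟨l, h2, h1, h3⟩
  deg := by
    rintro p _ ⟨i, x, hx, rfl⟩
    exact S'.of_mem_deg ((h i).deg hx)
  sg a := by
    obtain ⟨i, x, rfl⟩ := S.exists_of a
    show S'.of (σ i) ((h i).f ((S.C i).sg x)) = S'.sg (S'.of (σ i) ((h i).f x))
    rw [(h i).sg, S'.sg_of]
  d a := by
    obtain ⟨i, x, rfl⟩ := S.exists_of a
    show S'.of (σ i) ((h i).f ((S.C i).d x)) = S'.d (S'.of (σ i) ((h i).f x))
    rw [(h i).d, S'.d_of]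

theorem hom_of (σ : ι → ι') (h : ∀ i, NDga.Hom (S.C i) (S'.C (σ i)))
    (hc : ∀ i j (hij : i ≤ j) x, ∃ l, ∃ (h1 : σ i ≤ l) (h2 : σ j ≤ l),
      S'.map (σ j) l h2 ((h j).f (S.map i j hij x)) = S'.map (σ i) l h1 ((h i).f x)) (i : ι)
    (x : G i) : (S.hom S' σ h hc).f (S.of i x) = S'.of (σ i) ((h i).f x) := rfl

end Hom

end SysN

end Vale.Agent.P216.H929V
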