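import Vale.Agent.P216.H929V.HBase
import Vale.Agent.P216.H929V.ColimN
import Vale.Agent.P216.V1.Hyb2
import Vale.Agent.P216.V609.NLin

/-!
# P216-V, B6b: germs of the hybrid dga

`HD π ρ A X`: the direct limit of `HT π ρ A X ε` for `ε → 0`; `hD`: the dga; `evD`: the germs of
forms on the base are graded central; `pullD`: pull back along squares; `wD : NWData`: the list
cochains.
-/

set_option linter.all false

open Set Filter Topology
open scoped ContDiff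

namespace Vale.Agent.P216.H929V

open Vale.Agent.P231.Fm Vale.Agent.P231.WA V1 V609 H285V
open Vale.Agent.P216.Sl (CocL ExL)

noncomputable section

/-! ### Central morphisms of limits -/

namespace SysN

universe u v

variable {k : Type} [Field k] {ι : Type} [Preorder ι] [IsDirectedOrder ι] [Nonempty ι]
  {G : ι → Type u} [∀ i, Ring (G i)] [∀ i, Algebra k (G i)] (S : H285V.Sys k G)
  {G' : ι → Type v} [∀ i, Ring (G' i)] [∀ i, Algebra k (G' i)] (S' : SysN k G')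

/-- a central morphism of the limits -/
def chom (ev : ∀ i, CHom (S.C i) (S'.C i))
    (hev : ∀ i j h x, (S'.f i j h).f ((ev i).f x) = (ev j).f ((S.f i j h).f x)) :
    CHom S.cdga S'.ndga where
  f := S.lift (fun i => (S'.of i).comp (ev i).f) fun i j h x => by
    show S'.of j ((ev j).f ((S.f i j h).f x)) = S'.of i ((ev i).f x)
    rw [← hev, ← S'.of_map h]
  deg := by
    rintro p _ ⟨i, x, hx, rfl⟩
    exact S'.of_mem_deg ((ev i).deg' hx)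
  sg a := by
    obtain ⟨i, x, rfl⟩ := S.exists_of a
    show S'.of i ((ev i).f ((S.C i).sg x)) = S'.sg (S'.of i ((ev i).f x))
    rw [(ev i).sg', S'.sg_of]
  d a := by
    obtain ⟨i, x, rfl⟩ := S.exists_of a
    show S'.of i ((ev i).f ((S.C i).d x)) = S'.d (S'.of i ((ev i).f x))
    rw [(ev i).d', S'.d_of]
  central := by
    rintro p _ ⟨i, x, hx, rfl⟩ b
    obtain ⟨j, y, rfl⟩ := S'.exists_of b
    obtain ⟨l, hi, hj⟩ := directed_of (· ≤ ·) i j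
    have e1 : S.of i x = S.of l (S.map i l hi x) := (S.of_map hi x).symm
    rw [e1, ← S'.of_map hj]
    have h1 : ∀ (n : ℕ) (u : G' l), S'.sg^[n] (S'.of l u) = S'.of l ((S'.C l).sg^[n] u) := by
      intro n
      induction n with
      | zero => intro u; rfl
      | succ n ih =>
        intro u
        rw [Function.iterate_succ_apply, Function.iterate_succ_apply, S'.sg_of, ih]
    have h2 := (ev l).central ((S.f i l hi).deg hx) (S'.map j l hj y)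
    show S'.of l ((ev l).f (S.map i l hi x)) * S'.of l (S'.map j l hj y) =
      S'.sg^[p] (S'.of l (S'.map j l hj y)) * S'.of l ((ev l).f (S.map i l hi x))
    rw [h1, ← map_mul, ← map_mul]
    exact congrArg _ h2

theorem chom_of (ev : ∀ i, CHom (S.C i) (S'.C i))
    (hev : ∀ i j h x, (S'.f i j h).f ((ev i).f x) = (ev j).f ((S.f i j h).f x)) (i : ι) (x : G i) :
    (chom S S' ev hev).f (S.of i x) = S'.of i ((ev i).f x) := rfl

end SysN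

variable {E M N : Type} [PseudoMetricSpace E] [PseudoMetricSpace M] [PseudoMetricSpace N]
variable {π : E → N} {ρ : M → N} {A : Set M} {X : Set E} {ε : ℝ}
variable {E' M' N' : Type} [PseudoMetricSpace E'] [PseudoMetricSpace M'] [PseudoMetricSpace N']
variable {π' : E' → N'} {ρ' : M' → N'} {A' : Set M'} {X' : Set E'} {ε' : ℝ}
variable {E'' M'' N'' : Type} [PseudoMetricSpace E''] [PseudoMetricSpace M'']
  [PseudoMetricSpace N'']
variable {π'' : E'' → N''} {ρ'' : M'' → N''} {A'' : Set M''} {X'' : Set E''} {ε'' : ℝ}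

variable (π ρ A X) in
/-- the system of the hybrid dgas at all scales -/
def hsys : SysN ℝ (fun i : Sc => HT π ρ A X i.v) where
  C i := hN π ρ A X i.v
  f i j h := pullHom Sq.id (map_mono Subset.rfl Subset.rfl (Sc.le_iff.1 h))
  map_self i x := pullHom_id _ x
  map_map i j l hij hjl x := (pullHom_comp Sq.id _ Sq.id _ Sq.id _ x).symm

variable (π ρ A X) in
/-- **the germs of the hybrid algebras** -/
def HD : Type 1 := (hsys π ρ A X).L

instance : Ring (HD π ρ A X) := inferInstanceAs (Ring (hsys π ρ A X).L)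

instance : Algebra ℝ (HD π ρ A X) := inferInstanceAs (Algebra ℝ (hsys π ρ A X).L)

variable (π ρ A X) in
/-- **the dga of germs** -/
def hD : NDga ℝ (HD π ρ A X) := (hsys π ρ A X).ndga

variable (π ρ A X) in
/-- the germ of an element -/
def germD {ε : ℝ} (h : 0 < ε) : HT π ρ A X ε →ₐ[ℝ] HD π ρ A X := (hsys π ρ A X).of (Sc.mk ε h)

/-- restriction to a smaller scale -/
def resD {ε ε' : ℝ} (h : ε ≤ ε') : NDga.Hom (hN π ρ A X ε') (hN π ρ A X ε) :=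
  pullHom Sq.id (map_mono Subset.rfl Subset.rfl h)

theorem resD_val {ε ε' : ℝ} (h : ε ≤ ε') (w : HT π ρ A X ε') :
    ((resD h).f w).val = Form.pull id (map_mono Subset.rfl Subset.rfl h) w.val := rfl

theorem germD_res {ε ε' : ℝ} (h : 0 < ε) (h' : 0 < ε') (hε : ε ≤ ε') (w : HT π ρ A X ε') :
    germD π ρ A X h ((resD hε).f w) = germD π ρ A X h' w :=
  (hsys π ρ A X).of_map (i := Sc.mk ε' h') (j := Sc.mk ε h) (Sc.le_iff.2 hε) w

theorem exists_germD (z : HD π ρ A X) :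
    ∃ (ε : ℝ) (h : 0 < ε) (w : HT π ρ A X ε), z = germD π ρ A X h w := by
  obtain ⟨i, x, hx⟩ := (hsys π ρ A X).exists_of z
  exact ⟨i.v, i.pos, x, hx⟩

theorem germD_eq {ε ε' : ℝ} {h : 0 < ε} {h' : 0 < ε'} {w : HT π ρ A X ε} {w' : HT π ρ A X ε'} :
    germD π ρ A X h w = germD π ρ A X h' w' ↔ ∃ (δ : ℝ) (h1 : δ ≤ ε) (h2 : δ ≤ ε'), 0 < δ ∧
      (resD h1).f w = (resD h2).f w' := by
  refine (hsys π ρ A X).of_eq_of.trans ⟨?_, ?_⟩
  · rintro ⟨l, hi, hj, h⟩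
    exact ⟨l.v, hi, hj, l.pos, h⟩
  · rintro ⟨δ, h1, h2, h3, h4⟩
    exact ⟨Sc.mk δ h3, h1, h2, h4⟩

theorem germD_eq_zero {ε : ℝ} {h : 0 < ε} {w : HT π ρ A X ε} :
    germD π ρ A X h w = 0 ↔ ∃ (δ : ℝ) (h1 : δ ≤ ε), 0 < δ ∧ (resD h1).f w = 0 := by
  refine (hsys π ρ A X).of_eq_zero.trans ⟨?_, ?_⟩
  · rintro ⟨l, hi, h⟩
    exact ⟨l.v, hi, l.pos, h⟩
  · rintro ⟨δ, h1, h3, h4⟩
    exact ⟨Sc.mk δ h3, h1, h4⟩

theorem d_germD {ε : ℝ} (h : 0 < ε) (w : HT π ρ A X ε) :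
    (hD π ρ A X).d (germD π ρ A X h w) = germD π ρ A X h ((hN π ρ A X ε).d w) := rfl

theorem sg_germD {ε : ℝ} (h : 0 < ε) (w : HT π ρ A X ε) :
    (hD π ρ A X).sg (germD π ρ A X h w) = germD π ρ A X h ((hN π ρ A X ε).sg w) := rfl

theorem germD_mem_deg {ε : ℝ} (h : 0 < ε) {w : HT π ρ A X ε} {q : ℕ}
    (hw : w ∈ (hN π ρ A X ε).deg q) : germD π ρ A X h w ∈ (hD π ρ A X).deg q :=
  (hsys π ρ A X).of_mem_deg hw

theorem germD_mem_Z {ε : ℝ} (h : 0 < ε) {w : HT π ρ A X ε} {q : ℕ}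
    (hw : w ∈ (hN π ρ A X ε).Z q) : germD π ρ A X h w ∈ (hD π ρ A X).Z q :=
  ((hsys π ρ A X).ofHom (Sc.mk ε h)).map_Z hw

theorem germD_mem_B {ε : ℝ} (h : 0 < ε) {w : HT π ρ A X ε} {q : ℕ}
    (hw : w ∈ (hN π ρ A X ε).B q) : germD π ρ A X h w ∈ (hD π ρ A X).B q :=
  ((hsys π ρ A X).ofHom (Sc.mk ε h)).map_B hw

/-- a homogeneous germ is the germ of a homogeneous element, at arbitrarily small scales -/
theorem exists_degD {z : HD π ρ A X} {q : ℕ} (hz : z ∈ (hD π ρ A X).deg q) {ε₀ : ℝ}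
    (h₀ : 0 < ε₀) : ∃ (ε : ℝ) (h : 0 < ε), ε ≤ ε₀ ∧ ∃ w ∈ (hN π ρ A X ε).deg q,
      z = germD π ρ A X h w := by
  obtain ⟨i, x, hx, rfl⟩ := hz
  obtain ⟨l, hi, hj⟩ := exists_ge_ge i (Sc.mk ε₀ h₀)
  exact ⟨l.v, l.pos, hj, (hsys π ρ A X).map i l hi x, ((hsys π ρ A X).f i l hi).deg hx,
    ((hsys π ρ A X).of_map hi x).symm⟩

/-- a closed germ is the germ of a closed element, at arbitrarily small scales -/
theorem exists_ZD {z : HD π ρ A X} {q : ℕ} (hz : z ∈ (hD π ρ A X).Z q) {ε₀ : ℝ} (h₀ : 0 < ε₀) :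
    ∃ (ε : ℝ) (h : 0 < ε), ε ≤ ε₀ ∧ ∃ w ∈ (hN π ρ A X ε).Z q, z = germD π ρ A X h w := by
  obtain ⟨j, hj, x, hx, hz⟩ := (hsys π ρ A X).exists_Z hz (Sc.mk ε₀ h₀)
  exact ⟨j.v, j.pos, hj, x, hx, hz⟩

theorem mem_ZD {ε : ℝ} {h : 0 < ε} {w : HT π ρ A X ε} {q : ℕ} :
    germD π ρ A X h w ∈ (hD π ρ A X).Z q ↔ ∃ (δ : ℝ) (h1 : δ ≤ ε), 0 < δ ∧
      (resD h1).f w ∈ (hN π ρ A X δ).Z q := by
  refine (hsys π ρ A X).mem_Z.trans ⟨?_, ?_⟩
  · rintro ⟨l, hi, h⟩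
    exact ⟨l.v, hi, l.pos, h⟩
  · rintro ⟨δ, h1, h3, h4⟩
    exact ⟨Sc.mk δ h3, h1, h4⟩

theorem mem_BD {ε : ℝ} {h : 0 < ε} {w : HT π ρ A X ε} {q : ℕ} :
    germD π ρ A X h w ∈ (hD π ρ A X).B q ↔ ∃ (δ : ℝ) (h1 : δ ≤ ε), 0 < δ ∧
      (resD h1).f w ∈ (hN π ρ A X δ).B q := by
  refine (hsys π ρ A X).mem_B.trans ⟨?_, ?_⟩
  · rintro ⟨l, hi, h⟩
    exact ⟨l.v, hi, l.pos, h⟩
  · rintro ⟨δ, h1, h3, h4⟩
    exact ⟨Sc.mk δ h3, h1, h4⟩

/-! ### The base -/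

variable (π ρ A X) in
/-- **the germs of forms on the base are graded central** -/
def evD : CHom (vr X).cdga (hD π ρ A X) :=
  SysN.chom (vr X).sys (hsys π ρ A X) (fun i => iC π ρ A X i.v) fun i j h x =>
    pullHom_iC (φ := id) Sq.id (map_mono Subset.rfl Subset.rfl (Sc.le_iff.1 h))
      (map_monoM Subset.rfl (Sc.le_iff.1 h)) (fun _ => rfl) x

theorem evD_germ {ε : ℝ} (h : 0 < ε) (w : Form (DM X ε)) :
    (evD π ρ A X).f ((vr X).germ h w) = germD π ρ A X h ((iC π ρ A X ε).f w) := rfl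

/-! ### Squares -/

/-- **pull back of germs along a square** -/
def pullD {Φ : MP E' M' → MP E M} (hs : Sq Φ)
    (hΦ : ∀ ε, 0 < ε → (DT π' ρ' A' X' ε).Map (DT π ρ A X ε) Φ) :
    NDga.Hom (hD π ρ A X) (hD π' ρ' A' X') :=
  (hsys π ρ A X).hom (hsys π' ρ' A' X') (fun i => i) (fun i => pullHom hs (hΦ i.v i.pos))
    fun i j hij x => ⟨j, hij, le_refl j, HT.ext
      ((Form.pull_id (map_mono Subset.rfl Subset.rfl (le_refl j.v)) _).trans
        (pull_pull_eq (hΦ j.v j.pos) (map_mono Subset.rfl Subset.rfl (Sc.le_iff.1 hij))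
          (map_mono Subset.rfl Subset.rfl (Sc.le_iff.1 hij)) (hΦ i.v i.pos) rfl x.val))⟩

theorem pullD_germ {Φ : MP E' M' → MP E M} (hs : Sq Φ)
    (hΦ : ∀ ε, 0 < ε → (DT π' ρ' A' X' ε).Map (DT π ρ A X ε) Φ) {ε : ℝ} (h : 0 < ε)
    (w : HT π ρ A X ε) :
    (pullD hs hΦ).f (germD π ρ A X h w) =
      germD π' ρ' A' X' h ((pullHom hs (hΦ ε h)).f w) := rfl

theorem pullD_id (hΦ : ∀ ε, 0 < ε → (DT π ρ A X ε).Map (DT π ρ A X ε) id) (z : HD π ρ A X) :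
    (pullD Sq.id hΦ).f z = z := by
  obtain ⟨ε, h, w, rfl⟩ := exists_germD z
  rw [pullD_germ, pullHom_id]

theorem pullD_comp {Φ : MP E' M' → MP E M} (hs : Sq Φ)
    (hΦ : ∀ ε, 0 < ε → (DT π' ρ' A' X' ε).Map (DT π ρ A X ε) Φ) {Ψ : MP E'' M'' → MP E' M'}
    (hs' : Sq Ψ) (hΨ : ∀ ε, 0 < ε → (DT π'' ρ'' A'' X'' ε).Map (DT π' ρ' A' X' ε) Ψ)
    (hs'' : Sq (Φ ∘ Ψ)) (h : ∀ ε, 0 < ε → (DT π'' ρ'' A'' X'' ε).Map (DT π ρ A X ε) (Φ ∘ Ψ))
    (z : HD π ρ A X) : (pullD hs'' h).f z = (pullD hs' hΨ).f ((pullD hs hΦ).f z) := by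
  obtain ⟨ε, hε, w, rfl⟩ := exists_germD z
  rw [pullD_germ, pullD_germ, pullD_germ, pullHom_comp hs (hΦ ε hε) hs' (hΨ ε hε)]

theorem pullD_congr {Φ Ψ : MP E' M' → MP E M} (e : Φ = Ψ) (hs : Sq Φ)
    (hΦ : ∀ ε, 0 < ε → (DT π' ρ' A' X' ε).Map (DT π ρ A X ε) Φ) (hs' : Sq Ψ)
    (hΨ : ∀ ε, 0 < ε → (DT π' ρ' A' X' ε).Map (DT π ρ A X ε) Ψ) (z : HD π ρ A X) :
    (pullD hs hΦ).f z = (pullD hs' hΨ).f z := by
  subst e
  rfl

/-- the base of a square -/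
theorem pullD_evD {Φ : MP E' M' → MP E M} (hs : Sq Φ)
    (hΦ : ∀ ε, 0 < ε → (DT π' ρ' A' X' ε).Map (DT π ρ A X ε) Φ) {φ : (E' →₀ ℝ) → (E →₀ ℝ)}
    (hφ : ∀ ε, 0 < ε → (DM X' ε).Map (DM X ε) φ) (hφ' : Fam.Map (vr X') (vr X) φ)
    (e : ∀ p, (Φ p).1 = φ p.1) (z : GA X) :
    (pullD hs hΦ).f ((evD π ρ A X).f z) = (evD π' ρ' A' X').f ((Fam.pull φ hφ').f z) := by
  obtain ⟨ε, h, w, rfl⟩ := (vr X).exists_germ z
  have e1 := pullHom_iC hs (hΦ ε h) (hφ ε h) e w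
  have e2 := Fam.pull_germ φ hφ' h h (hφ ε h) w
  refine Eq.trans (b := germD π' ρ' A' X' h
    ((pullHom hs (hΦ ε h)).f ((iC π ρ A X ε).f w))) rfl ?_
  rw [e1]
  exact (congrArg (evD π' ρ' A' X').f e2).symm

end

end Vale.Agent.P216.H929V
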