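import Vale.Agent.P216.H929V.HRing

/-!
# P216-V, H-EX: pull back of the hybrid dga

`Sq Φ`: the map `Φ` on measures with lists is `(μ, l) ↦ (φ μ, l.map ψ)`. `pullHom Φ`: the pull back
as a morphism of the hybrid dgas.
-/

set_option linter.all false

open Set Filter Topology
open scoped ContDiff

namespace Vale.Agent.P216.H929V

open Vale.Agent.P231.Fm Vale.Agent.P231.WA V1 V609

noncomputable section

variable {E M N : Type} [PseudoMetricSpace E] [PseudoMetricSpace M] [PseudoMetricSpace N]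
variable {π : E → N} {ρ : M → N} {A : Set M} {X : Set E} {ε : ℝ}
variable {E' M' N' : Type} [PseudoMetricSpace E'] [PseudoMetricSpace M'] [PseudoMetricSpace N']
variable {π' : E' → N'} {ρ' : M' → N'} {A' : Set M'} {X' : Set E'} {ε' : ℝ}
variable {E'' M'' N'' : Type} [PseudoMetricSpace E''] [PseudoMetricSpace M'']
  [PseudoMetricSpace N'']
variable {π'' : E'' → N''} {ρ'' : M'' → N''} {A'' : Set M''} {X'' : Set E''} {ε'' : ℝ}

/-- a map on measures with lists which acts separately on the measure and the points -/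
def Sq (Φ : MP E' M' → MP E M) : Prop :=
  ∃ (φ : (E' →₀ ℝ) → (E →₀ ℝ)) (ψ : M' → M), Φ = fun p => (φ p.1, p.2.map ψ)

theorem Sq.id : Sq (id : MP E M → MP E M) := ⟨_root_.id, _root_.id, by funext p; simp⟩

theorem Sq.comp {Φ : MP E' M' → MP E M} {Ψ : MP E'' M'' → MP E' M'} (h : Sq Φ) (h' : Sq Ψ) :
    Sq (Φ ∘ Ψ) := by
  obtain ⟨φ, ψ, rfl⟩ := h
  obtain ⟨φ', ψ', rfl⟩ := h'
  exact ⟨φ ∘ φ', ψ ∘ ψ', by funext p; simp⟩

theorem Sq.mk (φ : (E' →₀ ℝ) → (E →₀ ℝ)) (ψ : M' → M) :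
    Sq (fun p : MP E' M' => ((φ p.1, p.2.map ψ) : MP E M)) := ⟨φ, ψ, rfl⟩

theorem bl_map {L : Type*} [AddCommGroup L] (f : List M → L) (ψ : M' → M) (l : List M') :
    bl f (l.map ψ) = bl (fun l => f (l.map ψ)) l := by
  induction l generalizing f with
  | nil => rfl
  | cons x l ih => rw [List.map_cons, bl_cons, bl_cons, ih]; rfl

section

variable {Φ : MP E' M' → MP E M} (hs : Sq Φ)
  (hΦ : (DT π' ρ' A' X' ε').Map (DT π ρ A X ε) Φ)
include hs

theorem pull_del (w : Form (DT π ρ A X ε)) :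
    Form.pull Φ hΦ (del w) = del (Form.pull Φ hΦ w) := by
  obtain ⟨φ, ψ, rfl⟩ := hs
  refine ext_T fun V _ _ _ u s F h => ?_
  obtain ⟨F', h'⟩ := hΦ h.at
  rw [Form.pull_val _ _ h.at, del_val w h', del_val _ h]
  change bl (fun l => w.val (fun y => ((φ (u y).1, l) : MP E M)) s) ((u s).2.map ψ) = _
  rw [bl_map]
  refine bl_congr' fun l' hl' => ?_
  exact (Form.pull_val hΦ w (h.sub hl').at).symm

theorem pull_sc (c : List M → ℝ) (c' : List M' → ℝ) (hc : ∀ p, c (Φ p).2 = c' p.2)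
    (w : Form (DT π ρ A X ε)) :
    Form.pull Φ hΦ (sc c w) = sc c' (Form.pull Φ hΦ w) := by
  refine ext_T fun V _ _ _ u s F h => ?_
  obtain ⟨F', h'⟩ := hΦ h.at
  rw [Form.pull_val _ _ h.at, sc_val _ _ h', sc_val _ _ h, Form.pull_val _ _ h.at]
  congr 1
  exact hc (u s)

theorem snd_length (p : MP E' M') : (Φ p).2.length = p.2.length := by
  obtain ⟨φ, ψ, rfl⟩ := hs
  simp

theorem pull_len (k : ℕ) (w : Form (DT π ρ A X ε)) :
    Form.pull Φ hΦ (len k w) = len k (Form.pull Φ hΦ w) :=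
  pull_sc hs hΦ _ _ (fun p => by simp only [ind]; rw [snd_length hs]) w

theorem pull_sgn (w : Form (DT π ρ A X ε)) :
    Form.pull Φ hΦ (sc sgn w) = sc sgn (Form.pull Φ hΦ w) :=
  pull_sc hs hΦ _ _ (fun p => by simp only [sgn]; rw [snd_length hs]) w

theorem pull_D (w : Form (DT π ρ A X ε)) :
    Form.pull Φ hΦ (D w) = D (Form.pull Φ hΦ w) := by
  rw [D, D, ← pull_del hs, ← Form.pull_d, ← pull_sgn hs]
  exact map_add (Form.pullA Φ hΦ) _ _

theorem pull_tau (w : Form (DT π ρ A X ε)) :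
    Form.pull Φ hΦ (tau w) = tau (Form.pull Φ hΦ w) := by
  rw [tau, tau, ← Form.pull_sg, ← pull_sgn hs]

theorem pull_tdg {m : ℕ} {w : Form (DT π ρ A X ε)} (h : TDg m w) :
    TDg m (Form.pull Φ hΦ w) := by
  have h0 : Form.pull Φ hΦ (0 : Form (DT π ρ A X ε)) = 0 := map_zero (Form.pullA Φ hΦ)
  refine ⟨?_, fun p q hpq => ?_, fun p hp => ?_⟩
  · rw [← pull_len hs, h.zero, h0]
  · rw [← pull_len hs]
    exact (h.deg p q hpq).pull _ _
  · rw [← pull_len hs, h.top p hp, h0]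

theorem pull_cst (c : List M → ℝ) (c' : List M' → ℝ) (hc : ∀ p, c (Φ p).2 = c' p.2) :
    Form.pull Φ hΦ (cst c) = cst c' := by
  refine ext_T fun V _ _ _ u s F h => ?_
  obtain ⟨F', h'⟩ := hΦ h.at
  rw [Form.pull_val _ _ h.at, cst_val _ h', cst_val _ h]
  congr 1
  exact hc (u s)

theorem pull_uno : Form.pull Φ hΦ uno = uno :=
  pull_cst hs hΦ _ _ (fun p => by simp only [ind]; rw [snd_length hs])

theorem pull_star' (a b : Form (DT π ρ A X ε)) :
    Form.pull Φ hΦ (star a b) = star (Form.pull Φ hΦ a) (Form.pull Φ hΦ b) := by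
  obtain ⟨φ, ψ, rfl⟩ := hs
  exact pull_star φ ψ hΦ a b

/-- **pull back as a morphism of the hybrid dgas** -/
def pullHom : NDga.Hom (hN π ρ A X ε) (hN π' ρ' A' X' ε') where
  f := AlgHom.ofLinearMap
    { toFun := fun a => HT.mk ε' (Form.pull Φ hΦ a.val) (by
        rw [← pull_len hs, a.len_val']
        exact map_zero (Form.pullA Φ hΦ))
      map_add' := fun a b => HT.ext (map_add (Form.pullA Φ hΦ) _ _)
      map_smul' := fun c a => HT.ext (map_smul (Form.pullA Φ hΦ) _ _) }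
    (HT.ext (pull_uno hs hΦ))
    (fun a b => HT.ext (pull_star' hs hΦ _ _))
  deg h := pull_tdg hs hΦ h
  sg a := HT.ext (by
    change Form.pull Φ hΦ (-tau a.val) = -tau (Form.pull Φ hΦ a.val)
    rw [← pull_tau hs]
    exact map_neg (Form.pullA Φ hΦ) _)
  d a := HT.ext (by
    change Form.pull Φ hΦ (-D a.val) = -D (Form.pull Φ hΦ a.val)
    rw [← pull_D hs]
    exact map_neg (Form.pullA Φ hΦ) _)

@[simp] theorem pullHom_val (a : HT π ρ A X ε) :
    ((pullHom hs hΦ).f a).val = Form.pull Φ hΦ a.val := rfl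

end

theorem pullHom_id (h : (DT π ρ A X ε).Map (DT π ρ A X ε) id) (a : HT π ρ A X ε) :
    (pullHom Sq.id h).f a = a := HT.ext (Form.pull_id h _)

theorem pullHom_comp {Φ : MP E' M' → MP E M} (hs : Sq Φ)
    (hΦ : (DT π' ρ' A' X' ε').Map (DT π ρ A X ε) Φ) {Ψ : MP E'' M'' → MP E' M'} (hs' : Sq Ψ)
    (hΨ : (DT π'' ρ'' A'' X'' ε'').Map (DT π' ρ' A' X' ε') Ψ) (hs'' : Sq (Φ ∘ Ψ))
    (h : (DT π'' ρ'' A'' X'' ε'').Map (DT π ρ A X ε) (Φ ∘ Ψ)) (a : HT π ρ A X ε) :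
    (pullHom hs'' h).f a = (pullHom hs' hΨ).f ((pullHom hs hΦ).f a) :=
  HT.ext (Form.pull_comp hΨ hΦ h _)

theorem pullHom_congr {Φ Ψ : MP E' M' → MP E M} (e : Φ = Ψ) (hs : Sq Φ)
    (hΦ : (DT π' ρ' A' X' ε').Map (DT π ρ A X ε) Φ) (hs' : Sq Ψ)
    (hΨ : (DT π' ρ' A' X' ε').Map (DT π ρ A X ε) Ψ) (a : HT π ρ A X ε) :
    (pullHom hs hΦ).f a = (pullHom hs' hΨ).f a := by
  subst e
  rfl

end

end Vale.Agent.P216.H929V
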