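import Vale.Agent.P216.H929V.HPull
import Vale.Agent.P216.H285V.Germ
import Vale.Agent.P216.V1.Prod4
import Vale.Agent.P216.V1.Emb

/-!
# P216-V, H-EX: the base of the hybrid dga

`iC : CHom (fC (DM X ε)) (hN π ρ A X ε)`: the forms on the measures are graded central.
-/

set_option linter.all false

open Set Filter Topology
open scoped ContDiff

namespace Vale.Agent.P216.H929V

open Vale.Agent.P231.Fm Vale.Agent.P231.WA V1 V609 H285V

noncomputable section

variable {E M N : Type} [PseudoMetricSpace E] [PseudoMetricSpace M] [PseudoMetricSpace N]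
variable {π : E → N} {ρ : M → N} {A : Set M} {X : Set E} {ε : ℝ}
variable {E' M' N' : Type} [PseudoMetricSpace E'] [PseudoMetricSpace M'] [PseudoMetricSpace N']
variable {π' : E' → N'} {ρ' : M' → N'} {A' : Set M'} {X' : Set E'} {ε' : ℝ}

theorem sg_deg_iter {k : Type*} [Field k] {B : Type*} [Ring B] [Algebra k B] (C : NDga k B)
    {m : ℕ} {b : B} (hb : b ∈ C.deg m) (p : ℕ) : C.sg^[p] b = ((-1 : k) ^ (p * m)) • b := by
  induction p with
  | zero => simp
  | succ p ih =>
    rw [Function.iterate_succ_apply', ih, map_smul, C.sg_deg hb, smul_smul, ← pow_add]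
    congr 2
    ring

theorem len_one_i (w : Form (DM X ε)) : len 0 (V1.i w : Form (DT π ρ A X ε)) = 0 := by
  rw [len_i, if_neg (by norm_num)]

/-- graded centrality for arbitrary elements -/
theorem i_star {q : ℕ} {w : Form (DM X ε)} (hw : Form.IsDeg q w) (b : HT π ρ A X ε) :
    star (V1.i w) b.val = star ((hN π ρ A X ε).sg^[q] b).val (V1.i w) := by
  rcases Nat.even_or_odd q with hq | hq
  · rw [NDga.sg_iter_even _ hq]
    exact base_star_even b.len_val' (hw.sg_of_even hq)
  · rw [NDga.sg_iter_odd _ hq, hN_sg]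
    have hwg : w.sg = -w := hw.sg_of_odd hq
    refine ext_T fun V _ _ _ u s F h => ?_
    rcases eq_or_ne (u s).2 [] with h0 | h0
    · rw [val_nil (len_zero_star _ _) h h0, val_nil (len_zero_star _ _) h h0]
    · have hsg : ∀ (n : ℕ), (iv V)^[n] (w.val (fun y => (u y).1) s) =
          (-1 : ℝ) ^ n • w.val (fun y => (u y).1) s := by
        intro n
        have h1 : iv V (w.val (fun y => (u y).1) s) = -w.val (fun y => (u y).1) s := by
          rw [iv_apply, ← Form.sg_val, hwg, Form.neg_val]
        induction n with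
        | zero => simp
        | succ n ih => rw [Function.iterate_succ_apply', ih, iv_smul, h1, pow_succ, mul_neg_one,
            neg_smul, smul_neg]
      obtain ⟨n, hn⟩ : ∃ n, (u s).2.length = n + 1 :=
        ⟨(u s).2.length - 1, by have := List.length_pos_iff.2 h0; omega⟩
      have e1 : (star (V1.i w) b.val).val u s =
          (iv V)^[(u s).2.length - 1] (w.val (fun y => (u y).1) s) * b.val.val u s :=
        base_star_val w h h0
      have e2 : star (-tau b.val) (V1.i w) = -tau b.val * Form.pull Prod.fst map_fst w :=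
        star_base (by rw [len_neg, len_zero_tau b.len_val', neg_zero]) w
      have e3 : inv (w.val (fun y => (u y).1) s) = -w.val (fun y => (u y).1) s := by
        rw [← Form.sg_val, hwg, Form.neg_val]
      rw [e1, e2, Form.mul_val, pull_fst_val w h, Form.neg_val, tau, sc_val _ _ h, Form.sg_val,
        hsg, sgn, hn, Nat.add_sub_cancel, smul_mul_assoc, Vale.Agent.P231.Fm.mul_of_odd e3, pow_succ, mul_neg_one,
        neg_smul, neg_neg, smul_mul_assoc]

variable (π ρ A X ε) in
/-- **the forms on the measures are graded central** -/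
def iC : CHom (fC (DM X ε)) (hN π ρ A X ε) where
  f := AlgHom.ofLinearMap
    { toFun := fun w => HT.mk ε (V1.i w) (len_one_i w)
      map_add' := fun a b => HT.ext (i_add _ _)
      map_smul' := fun c a => HT.ext (i_smul _ _) }
    (HT.ext (by
      refine ext_T fun V _ _ _ u s F h => ?_
      change (V1.i (1 : Form (DM X ε)) : Form (DT π ρ A X ε)).val u s = (uno).val u s
      rw [i_val _ h, uno, cst_val _ h, ind]
      split_ifs
      · rw [map_one]
        exact Form.one_val (D := DM X ε) (u := fun y => (u y).1) (map_fst h.at)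
      · rw [map_zero]))
    (fun a b => HT.ext (base_star_base a b).symm)
  deg h := TDg_i h
  sg a := HT.ext (by
    change V1.i a.sg = -tau (V1.i a)
    refine ext_T fun V _ _ _ u s F h => ?_
    rw [Form.neg_val, tau, sc_val _ _ h, Form.sg_val, i_val _ h, i_val _ h, sgn]
    split_ifs with h1
    · rw [h1, pow_one, neg_one_smul, neg_neg, Form.sg_val]
    · rw [map_zero, smul_zero, neg_zero])
  d a := HT.ext (by
    change V1.i a.d = -D (V1.i a)
    rw [D_i, neg_neg])
  central := fun {p a} ha b => HT.ext (i_star ha b)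

theorem iC_val (w : Form (DM X ε)) : ((iC π ρ A X ε).f w).val = V1.i w := rfl

/-- naturality of the base -/
theorem pullHom_iC {Φ : MP E' M' → MP E M} (hs : Sq Φ)
    (hΦ : (DT π' ρ' A' X' ε').Map (DT π ρ A X ε) Φ) {φ : (E' →₀ ℝ) → (E →₀ ℝ)}
    (hφ : (DM X' ε').Map (DM X ε) φ) (e : ∀ p, (Φ p).1 = φ p.1) (w : Form (DM X ε)) :
    (pullHom hs hΦ).f ((iC π ρ A X ε).f w) = (iC π' ρ' A' X' ε').f (Form.pull φ hφ w) := by
  refine HT.ext ?_
  change Form.pull Φ hΦ (V1.i w) = V1.i (Form.pull φ hφ w)
  refine ext_T fun V _ _ _ u s F h => ?_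
  obtain ⟨F', h'⟩ := hΦ h.at
  rw [Form.pull_val _ _ h.at, i_val _ h', i_val _ h]
  have e1 : ((Φ ∘ u) s).2.length = (u s).2.length := snd_length hs _
  rw [e1]
  split_ifs with h1
  · have e3 : (DM X' ε').At (fun y => (u y).1) s := map_fst h.at
    rw [Form.pull_val hφ w e3]
    have e2 : (fun y => ((Φ ∘ u) y).1) = φ ∘ (fun y => (u y).1) := funext fun y => e (u y)
    rw [e2]
  · rfl

end

end Vale.Agent.P216.H929V
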