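import Vale.Agent.P216.H929V.Rows
import Vale.Agent.P216.V1.Prod3
import Vale.Agent.P216.V609.NDga

/-!
# P216-V, H-EX: the hybrid dga at one scale

`HT π ρ A X ε`: the forms on measures with lists, without a part on the empty list, with the
product `star`; `hN`: it is a dga (`V609.NDga`) with the differential `-D` (so that `i` is a
morphism: `D (i ω) = -i ω.d`).
-/

set_option linter.all false

open Set Filter Topology
open scoped ContDiff

namespace Vale.Agent.P216.H929V

open Vale.Agent.P231.Fm Vale.Agent.P231.WA V1 V609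

noncomputable section

variable {E M N : Type} [PseudoMetricSpace E] [PseudoMetricSpace M] [PseudoMetricSpace N]
variable {π : E → N} {ρ : M → N} {A : Set M} {X : Set E} {ε : ℝ} {κ : M → E}

/-! ### `tau` -/

theorem tau_add (v w : Form (DT π ρ A X ε)) : tau (v + w) = tau v + tau w := by
  rw [tau, tau, tau, Form.sg_add, sc_add]

theorem tau_smul (c : ℝ) (w : Form (DT π ρ A X ε)) : tau (c • w) = c • tau w := by
  rw [tau, tau, Form.sg_smul, sc_smul]

theorem tau_tau (w : Form (DT π ρ A X ε)) : tau (tau w) = w := by
  rw [tau, tau, sg_sc, Form.sg_sg, sc_sgn_sgn]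

theorem tau_D (w : Form (DT π ρ A X ε)) : tau (D w) = -D (tau w) := by
  rw [tau, D, D, tau, Form.sg_add, sc_add, sg_del, del_sgn, neg_add, neg_neg]
  congr 1
  rw [sg_sc, d_sc, Form.d_sg, sc_neg, sc_neg, neg_neg]

theorem len_zero_D {w : Form (DT π ρ A X ε)} (h : len 0 w = 0) : len 0 (D w) = 0 := by
  rw [len_D_zero, h, Form.d_zero]

theorem len_zero_tau {w : Form (DT π ρ A X ε)} (h : len 0 w = 0) : len 0 (tau w) = 0 := by
  rw [tau, len_sc, len, ← sg_sc]
  change sc sgn (len 0 w).sg = 0
  rw [h, Form.sg_zero, sc_zero]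

theorem len_zero_star (a b : Form (DT π ρ A X ε)) : len 0 (star a b) = 0 :=
  ext_T fun V _ _ _ u s F h => by
    rw [len_val _ _ h, Form.zero_val]
    split_ifs with h1
    · rw [star_val _ _ h, List.length_eq_zero_iff.1 h1]
      rfl
    · rfl

variable (π ρ A X ε) in
/-- the elements without a part on the empty list -/
def H0 : Submodule ℝ (Form (DT π ρ A X ε)) where
  carrier := {w | len 0 w = 0}
  add_mem' := fun {a b} ha hb => by
    change len 0 (a + b) = 0
    rw [len_add, show len 0 a = 0 from ha, show len 0 b = 0 from hb, add_zero]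
  zero_mem' := len_zero 0
  smul_mem' := fun c a ha => by
    change len 0 (c • a) = 0
    rw [len_smul, show len 0 a = 0 from ha, smul_zero]

variable (π ρ A X ε) in
/-- **the hybrid algebra at one scale** -/
def HT : Type 1 := H0 π ρ A X ε

namespace HT

/-- the form -/
def val (a : HT π ρ A X ε) : Form (DT π ρ A X ε) := a.1

theorem len_val' (a : HT π ρ A X ε) : len 0 a.val = 0 := a.2

variable (ε) in
/-- make an element -/
def mk (w : Form (DT π ρ A X ε)) (h : len 0 w = 0) : HT π ρ A X ε := ⟨w, h⟩

@[simp] theorem mk_val (w : Form (DT π ρ A X ε)) (h : len 0 w = 0) : (mk ε w h).val = w := rfl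

@[ext] theorem ext {a b : HT π ρ A X ε} (h : a.val = b.val) : a = b := Subtype.ext h

instance : AddCommGroup (HT π ρ A X ε) := inferInstanceAs (AddCommGroup (H0 π ρ A X ε))
instance : Module ℝ (HT π ρ A X ε) := inferInstanceAs (Module ℝ (H0 π ρ A X ε))

@[simp] theorem val_add (a b : HT π ρ A X ε) : (a + b).val = a.val + b.val := rfl
@[simp] theorem val_sub (a b : HT π ρ A X ε) : (a - b).val = a.val - b.val := rfl
@[simp] theorem val_neg (a : HT π ρ A X ε) : (-a).val = -a.val := rfl
@[simp] theorem val_zero : (0 : HT π ρ A X ε).val = 0 := rfl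
@[simp] theorem val_smul (c : ℝ) (a : HT π ρ A X ε) : (c • a).val = c • a.val := rfl

instance : Mul (HT π ρ A X ε) := ⟨fun a b => mk ε (star a.val b.val) (len_zero_star _ _)⟩
instance : One (HT π ρ A X ε) := ⟨mk ε uno TDg_uno.zero⟩

@[simp] theorem val_mul (a b : HT π ρ A X ε) : (a * b).val = star a.val b.val := rfl
@[simp] theorem val_one : (1 : HT π ρ A X ε).val = uno := rfl

instance : Ring (HT π ρ A X ε) where
  __ := (inferInstance : AddCommGroup (HT π ρ A X ε))
  left_distrib a b c := ext (star_add_right _ _ _)
  right_distrib a b c := ext (star_add_left _ _ _)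
  zero_mul a := ext (star_zero_left _)
  mul_zero a := ext (star_zero_right _)
  mul_assoc a b c := ext (star_assoc _ _ _)
  one_mul a := ext (uno_star a.2)
  mul_one a := ext (star_uno a.2)

instance : Algebra ℝ (HT π ρ A X ε) := Algebra.ofModule
  (fun r x y => ext (star_smul_left r _ _))
  (fun r x y => ext (star_smul_right r _ _))

end HT

variable (π ρ A X ε) in
/-- **the hybrid dga at one scale** -/
def hN : NDga ℝ (HT π ρ A X ε) where
  deg q := { carrier := {a | TDg (q + 1) a.val}
             add_mem' := fun ha hb => tdg_add ha hb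
             zero_mem' := tdg_zero _
             smul_mem' := fun c _ h => tdg_smul c h }
  sg := AlgHom.ofLinearMap
    { toFun := fun a => HT.mk ε (-tau a.val) (by
        rw [len_neg, len_zero_tau a.len_val', neg_zero])
      map_add' := fun a b => HT.ext (by simp [tau_add]; abel)
      map_smul' := fun c a => HT.ext (by simp [tau_smul]) }
    (HT.ext (by
      change -tau (uno : Form (DT π ρ A X ε)) = uno
      rw [TDg.tau TDg_uno, pow_one, neg_one_smul, neg_neg]))
    (fun a b => HT.ext (by
      change -tau (star a.val b.val) = star (-tau a.val) (-tau b.val)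
      rw [tau_star, neg_neg, star_neg_left, star_neg_right, neg_neg]))
  d := { toFun := fun a => HT.mk ε (-D a.val) (by rw [len_neg, len_zero_D a.len_val', neg_zero])
         map_add' := fun a b => HT.ext (by
          change -D (a.val + b.val) = -D a.val + -D b.val
          rw [D_add, neg_add])
         map_smul' := fun c a => HT.ext (by
          change -D (c • a.val) = c • -D a.val
          rw [D_smul, smul_neg]) }
  one_mem := TDg_uno
  mul_mem := fun {p q a b} ha hb => by
    have h1 : TDg (p + 1) a.val := ha
    have h2 : TDg (q + 1) b.val := hb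
    have h3 := h1.star h2
    have e : p + 1 + (q + 1) - 1 = p + q + 1 := by omega
    rw [e] at h3
    exact h3
  sg_deg := fun {p a} ha => HT.ext (by
    have h1 : TDg (p + 1) a.val := ha
    change -tau a.val = (-1 : ℝ) ^ p • a.val
    rw [h1.tau, pow_succ, mul_neg_one, neg_smul, neg_neg])
  sg_sg a := HT.ext (by
    change -tau (-tau a.val) = a.val
    rw [← neg_one_smul ℝ (tau a.val), tau_smul, tau_tau, neg_one_smul, neg_neg])
  sg_d a := HT.ext (by
    change -tau (-D a.val) = - -D (-tau a.val)
    rw [← neg_one_smul ℝ (D a.val), tau_smul, tau_D, D_neg, neg_one_smul])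
  d_mem := fun {p a} ha => tdg_neg (tdg_D ha)
  d_d a := HT.ext (by
    change -D (-D a.val) = 0
    rw [D_neg, D_D, neg_zero, neg_zero])
  leib a b := HT.ext (by
    change -D (star a.val b.val) = star (-D a.val) b.val + star (-tau a.val) (-D b.val)
    rw [D_star a.len_val' b.len_val', star_neg_left, star_neg_left, star_neg_right]
    abel)

theorem hN_d (a : HT π ρ A X ε) : ((hN π ρ A X ε).d a).val = -D a.val := rfl

theorem hN_sg (a : HT π ρ A X ε) : ((hN π ρ A X ε).sg a).val = -tau a.val := rfl

theorem mem_hN_deg {q : ℕ} {a : HT π ρ A X ε} : a ∈ (hN π ρ A X ε).deg q ↔ TDg (q + 1) a.val :=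
  Iff.rfl

end

end Vale.Agent.P216.H929V
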