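import Vale.Agent.P216.H929V.HW
import Vale.Agent.P216.V1.Nat
import Vale.Agent.P216.V775.NTower

/-!
# P216-V, C3: Lipschitz squares act on the germs of the hybrid dgas

`LSq π ρ A X π' ρ' A' X' f ψ`, `LSq.hom : hD π' ρ' A' X' → hD π ρ A X`; `hND`: the hybrid dga as
`V775.ND` over the germs of forms `gCD X`; `hSys`: the system of a monotone family of sets.
-/

set_option linter.all false

open Set Filter Topology
open scoped ContDiff

namespace Vale.Agent.P216.H929V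

open Vale.Agent.P231.Fm Vale.Agent.P231.WA V1 V609 H285V
open Vale.Agent.P216.V775 (CD ND NMp NMo NSysO)

noncomputable section

variable {E M N : Type} [PseudoMetricSpace E] [PseudoMetricSpace M] [PseudoMetricSpace N]
variable {π : E → N} {ρ : M → N} {A : Set M} {X : Set E}
variable {E' M' N' : Type} [PseudoMetricSpace E'] [PseudoMetricSpace M'] [PseudoMetricSpace N']
variable {π' : E' → N'} {ρ' : M' → N'} {A' : Set M'} {X' : Set E'}
variable {E'' M'' N'' : Type} [PseudoMetricSpace E''] [PseudoMetricSpace M'']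
  [PseudoMetricSpace N'']
variable {π'' : E'' → N''} {ρ'' : M'' → N''} {A'' : Set M''} {X'' : Set E''}
variable {f : E → E'} {ψ : M → M'} {f' : E' → E''} {ψ' : M' → M''}

variable (π ρ A X π' ρ' A' X' f ψ) in
/-- **a Lipschitz square** -/
structure LSq : Prop where
  mX : ∀ x ∈ X, f x ∈ X'
  lX : ∀ x ∈ X, ∀ y ∈ X, dist (f x) (f y) ≤ dist x y
  mA : ∀ x ∈ A, ψ x ∈ A'
  lA : ∀ x ∈ A, ∀ y ∈ A, dist (ψ x) (ψ y) ≤ dist x y
  n : ∀ a ∈ A, ∀ x ∈ X, dist (ρ' (ψ a)) (π' (f x)) ≤ dist (ρ a) (π x)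

namespace LSq

theorem of_map {g : N → N'} (mX : ∀ x ∈ X, f x ∈ X')
    (lX : ∀ x ∈ X, ∀ y ∈ X, dist (f x) (f y) ≤ dist x y) (mA : ∀ x ∈ A, ψ x ∈ A')
    (lA : ∀ x ∈ A, ∀ y ∈ A, dist (ψ x) (ψ y) ≤ dist x y)
    (h1 : ∀ x ∈ X, π' (f x) = g (π x)) (h2 : ∀ a ∈ A, ρ' (ψ a) = g (ρ a))
    (hg : ∀ y y', dist (g y) (g y') ≤ dist y y') : LSq π ρ A X π' ρ' A' X' f ψ :=
  ⟨mX, lX, mA, lA, fun a ha x hx => by rw [h1 x hx, h2 a ha]; exact hg _ _⟩

theorem incl {A₁ : Set M} {X₁ : Set E} (hA : A ⊆ A₁) (hX : X ⊆ X₁) :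
    LSq π ρ A X π ρ A₁ X₁ id id where
  mX _ h := hX h
  lX _ _ _ _ := le_rfl
  mA _ h := hA h
  lA _ _ _ _ := le_rfl
  n _ _ _ _ := le_rfl

theorem comp (h' : LSq π' ρ' A' X' π'' ρ'' A'' X'' f' ψ')
    (h : LSq π ρ A X π' ρ' A' X' f ψ) : LSq π ρ A X π'' ρ'' A'' X'' (f' ∘ f) (ψ' ∘ ψ) where
  mX x hx := h'.mX _ (h.mX x hx)
  lX x hx y hy := (h'.lX _ (h.mX x hx) _ (h.mX y hy)).trans (h.lX x hx y hy)
  mA x hx := h'.mA _ (h.mA x hx)
  lA x hx y hy := (h'.lA _ (h.mA x hx) _ (h.mA y hy)).trans (h.lA x hx y hy)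
  n a ha x hx := (h'.n _ (h.mA a ha) _ (h.mX x hx)).trans (h.n a ha x hx)

theorem um (h : LSq π ρ A X π' ρ' A' X' f ψ) : UM X X' f := UM.of_lip h.mX h.lX

theorem sqD (h : LSq π ρ A X π' ρ' A' X' f ψ) (ε : ℝ) : SqD π ρ A X ε π' ρ' A' X' ε f ψ :=
  ⟨SmM.of_lip h.mX h.lX le_rfl, SmM.of_lip h.mA h.lA le_rfl,
    fun a ha x hx hd => (h.n a ha x hx).trans_lt hd⟩

/-- **pull back along a Lipschitz square** -/
def hom (h : LSq π ρ A X π' ρ' A' X' f ψ) : NDga.Hom (hD π' ρ' A' X') (hD π ρ A X) :=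
  pullD sq_pm fun ε _ => (h.sqD ε).map

/-- the same at one scale -/
def homT (h : LSq π ρ A X π' ρ' A' X' f ψ) (ε : ℝ) :
    NDga.Hom (hN π' ρ' A' X' ε) (hN π ρ A X ε) :=
  pullHom sq_pm (h.sqD ε).map

theorem hom_germ (h : LSq π ρ A X π' ρ' A' X' f ψ) {ε : ℝ} (hε : 0 < ε)
    (w : HT π' ρ' A' X' ε) :
    h.hom.f (germD π' ρ' A' X' hε w) = germD π ρ A X hε ((h.homT ε).f w) := rfl

/-- **the base of a square** -/
theorem ev (h : LSq π ρ A X π' ρ' A' X' f ψ) (z : GA X') :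
    h.hom.f ((evD π' ρ' A' X').f z) = (evD π ρ A X).f ((gmap h.um).f z) :=
  pullD_evD sq_pm (fun ε _ => (h.sqD ε).map) (φ := Finsupp.mapDomain f)
    (fun ε _ => map_dm (h.sqD ε).smX) h.um.fam (fun p => rfl) z

theorem hom_comp (h' : LSq π' ρ' A' X' π'' ρ'' A'' X'' f' ψ')
    (h : LSq π ρ A X π' ρ' A' X' f ψ) (h'' : LSq π ρ A X π'' ρ'' A'' X'' (f' ∘ f) (ψ' ∘ ψ))
    (z : HD π'' ρ'' A'' X'') : h''.hom.f z = h.hom.f (h'.hom.f z) := by
  have e : (pm (f' ∘ f) (ψ' ∘ ψ) : MP E M → MP E'' M'') = pm f' ψ' ∘ pm f ψ := by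
    funext p
    refine Prod.ext ?_ ?_
    · exact Finsupp.mapDomain_comp
    · exact (List.map_map).symm
  have hs : Sq (pm f' ψ' ∘ pm f ψ : MP E M → MP E'' M'') := sq_pm.comp sq_pm
  have hm : ∀ ε, 0 < ε → (DT π ρ A X ε).Map (DT π'' ρ'' A'' X'' ε) (pm f' ψ' ∘ pm f ψ) :=
    fun ε _ => (h'.sqD ε).map.comp (h.sqD ε).map
  exact (pullD_congr e sq_pm (fun ε _ => (h''.sqD ε).map) hs hm z).trans
    (pullD_comp sq_pm (fun ε _ => (h'.sqD ε).map) sq_pm (fun ε _ => (h.sqD ε).map) hs hm z)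

theorem hom_congr {f₁ : E → E'} {ψ₁ : M → M'} (h : LSq π ρ A X π' ρ' A' X' f ψ)
    (h₁ : LSq π ρ A X π' ρ' A' X' f₁ ψ₁) (e : f = f₁) (e' : ψ = ψ₁) (z : HD π' ρ' A' X') :
    h.hom.f z = h₁.hom.f z := by
  subst e e'
  rfl

theorem hom_id (h : LSq π ρ A X π ρ A X id id) (z : HD π ρ A X) :
    h.hom.f z = z := by
  have e : (pm id id : MP E M → MP E M) = id := by
    funext p
    refine Prod.ext ?_ ?_
    · exact Finsupp.mapDomain_id
    · exact List.map_id _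
  have hm : ∀ ε, 0 < ε → (DT π ρ A X ε).Map (DT π ρ A X ε) id :=
    fun ε _ => map_mono Subset.rfl Subset.rfl le_rfl
  exact (pullD_congr e sq_pm (fun ε _ => (h.sqD ε).map) Sq.id hm z).trans (pullD_id hm z)

theorem hom_WD (h : LSq π ρ A X π' ρ' A' X' f ψ) (n : ℕ) (c : List M' → ℝ) :
    h.hom.f (WD π' ρ' A' X' n c) = WD π ρ A X n (fun l => c (l.map ψ)) :=
  pullD_WD sq_pm (fun ε _ => (h.sqD ε).map) (fun _ => rfl) n c

end LSq

/-! ### As dgas over the germs of forms -/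

variable (X) in
/-- the germs of forms as a bundled cdga -/
def gCD : CD.{1} ℝ := ⟨GA X, (vr X).cdga⟩

variable (π ρ A X) in
/-- **the germs of the hybrid dga as a dga over the germs of forms** -/
def hND : ND.{1} (gCD X) := ⟨HD π ρ A X, hD π ρ A X, evD π ρ A X⟩

/-- the morphism of the bases -/
def gHm (h : UM X X' f) : (gCD X').Hm (gCD X) := gmap h

/-- **the morphism of a Lipschitz square** -/
def LSq.nmp (h : LSq π ρ A X π' ρ' A' X' f ψ) (hf : UM X X' f) :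
    NMp (gHm hf) (hND π' ρ' A' X') (hND π ρ A X) where
  g := h.hom
  ev a := h.ev a

@[simp] theorem LSq.nmp_f (h : LSq π ρ A X π' ρ' A' X' f ψ) (hf : UM X X' f)
    (a : HD π' ρ' A' X') : (h.nmp hf).g.f a = h.hom.f a := rfl

theorem gmap_id' (h : UM X X id) (z : GA X) : (gmap h).f z = z := gmap_id z

/-- the morphism of a Lipschitz square which is the identity on the base -/
def LSq.nmo {ρ : M → E} {ρ' : M' → E} (h : LSq (id : E → E) ρ A X (id : E → E) ρ' A' X id ψ) :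
    NMo (hND (id : E → E) ρ' A' X) (hND (id : E → E) ρ A X) where
  g := h.hom
  ev a := (h.ev a).trans (congrArg _ (gmap_id' h.um a))

/-- **the system of a monotone family of sets** -/
def hSys (ρ : M → E) (X : Set E) (A : ℝ → Set M) (hA : ∀ s t, t ≤ s → A t ⊆ A s) :
    NSysO.{1} (gCD X) where
  Y t := hND (id : E → E) ρ (A t) X
  ρ s t h := (LSq.incl (hA s t h) Subset.rfl).nmo
  ρ_ρ s t r h h' a :=
    (LSq.hom_comp (LSq.incl (hA s t h) Subset.rfl) (LSq.incl (hA t r h') Subset.rfl)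
      (LSq.incl (hA s r (h'.trans h)) Subset.rfl) a).symm

theorem hSys_ρ {ρ : M → E} {X : Set E} {A : ℝ → Set M} {hA : ∀ s t, t ≤ s → A t ⊆ A s}
    (s t : ℝ) (h : t ≤ s) (a : HD (id : E → E) ρ (A s) X) :
    ((hSys ρ X A hA).ρ s t h).g.f a =
      (LSq.incl (π := (id : E → E)) (ρ := ρ) (hA s t h) (Subset.rfl : X ⊆ X)).hom.f a := rfl

/-- **the data for the growth** -/
def hSys_w (ρ : M → E) (hρ : ∀ x x', dist (ρ x) (ρ x') ≤ dist x x') (A : ℝ → Set M)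
    (hA : ∀ s t, t ≤ s → A t ⊆ A s) (t : ℝ) :
    NWData ((hSys ρ univ A hA).toNSys.C t) (A t) := wD hρ

theorem hSys_hw (ρ : M → E) (hρ : ∀ x x', dist (ρ x) (ρ x') ≤ dist x x') (A : ℝ → Set M)
    (hA : ∀ s t, t ≤ s → A t ⊆ A s) (s t : ℝ) (h : t ≤ s) (n : ℕ) (c : List M → ℝ) :
    ((hSys ρ univ A hA).toNSys.ρ s t h).f ((hSys_w ρ hρ A hA s).W n c) =
      (hSys_w ρ hρ A hA t).W n c := by
  refine (LSq.hom_WD (LSq.incl (π := (id : E → E)) (ρ := ρ) (hA s t h)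
    (Subset.rfl : (univ : Set E) ⊆ univ)) n c).trans ?_
  refine congrArg (WD (id : E → E) ρ (A t) univ n) ?_
  funext l
  rw [List.map_id]

end

end Vale.Agent.P216.H929V
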