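import Vale.Agent.P216.H929V.HD

/-!
# P216-V, B6b: list cochains in the hybrid dga

`WD n f`: the germ of the function `(-1)^n f` of the lists of length `n + 1`; `wD`: these give
`NWData (hD id ρ A univ) A` if `ρ` does not increase distances.
-/

set_option linter.all false

open Set Filter Topology
open scoped ContDiff

namespace Vale.Agent.P216.H929V

open Vale.Agent.P231.Fm Vale.Agent.P231.WA V1 V609 H285V
open Vale.Agent.P216.Sl (CocL ExL)

noncomputable section

variable {E M N : Type} [PseudoMetricSpace E] [PseudoMetricSpace M] [PseudoMetricSpace N]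
variable {π : E → N} {ρ : M → N} {A : Set M} {X : Set E} {ε : ℝ}
variable {E' M' N' : Type} [PseudoMetricSpace E'] [PseudoMetricSpace M'] [PseudoMetricSpace N']
variable {π' : E' → N'} {ρ' : M' → N'} {A' : Set M'} {X' : Set E'} {ε' : ℝ}

theorem ind_mul_len (n : ℕ) (f : List M → ℝ) (l : List M) (hl : l.length ≠ n) :
    ind n l * f l = 0 := by
  rw [ind, if_neg hl, zero_mul]

theorem ind_mul_self {n : ℕ} {f : List M → ℝ} (hf : ∀ l, l.length ≠ n → f l = 0) (l : List M) :
    ind n l * f l = f l := by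
  by_cases h : l.length = n
  · rw [ind, if_pos h, one_mul]
  · rw [ind, if_neg h, zero_mul, hf l h]

theorem tdg_cstI (n : ℕ) (f : List M → ℝ) :
    TDg (n + 1) (cst (fun l => ind (n + 1) l * f l) : Form (DT π ρ A X ε)) :=
  TDg_cst (by omega) (ind_mul_len (n + 1) f)

variable (π ρ A X ε) in
/-- **the functions of the lists at one scale** -/
def WT (n : ℕ) : (List M → ℝ) →ₗ[ℝ] HT π ρ A X ε where
  toFun f := HT.mk ε ((-1 : ℝ) ^ n • cst (fun l => ind (n + 1) l * f l))
    (tdg_smul _ (tdg_cstI n f)).zero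
  map_add' f g := HT.ext (by
    rw [HT.val_add, HT.mk_val, HT.mk_val, HT.mk_val, ← smul_add, ← V1.cst_add]
    congr 2
    funext l
    rw [Pi.add_apply, mul_add])
  map_smul' c f := HT.ext (by
    rw [RingHom.id_apply, HT.val_smul, HT.mk_val, HT.mk_val, smul_comm]
    refine congrArg ((-1 : ℝ) ^ n • ·) ?_
    rw [← V1.cst_smul]
    congr 1
    funext l
    rw [Pi.smul_apply, smul_eq_mul]
    ring)

theorem WT_val (n : ℕ) (f : List M → ℝ) :
    (WT π ρ A X ε n f).val = (-1 : ℝ) ^ n • cst (fun l => ind (n + 1) l * f l) := rfl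

/-- functions which vanish on the lists of other lengths -/
theorem WT_val' {n : ℕ} {f : List M → ℝ} (hf : ∀ l, l.length ≠ n + 1 → f l = 0) :
    (WT π ρ A X ε n f).val = (-1 : ℝ) ^ n • cst f := by
  rw [WT_val]
  congr 2
  funext l
  exact ind_mul_self hf l

theorem WT_mem (n : ℕ) (f : List M → ℝ) : WT π ρ A X ε n f ∈ (hN π ρ A X ε).deg n :=
  tdg_smul _ (tdg_cstI n f)

theorem WT_d (n : ℕ) (f : List M → ℝ) :
    (hN π ρ A X ε).d (WT π ρ A X ε n f) = WT π ρ A X ε (n + 1) (Sl.dl f) := HT.ext (by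
  rw [hN_d, WT_val, WT_val, D_smul, D_cst, pow_succ, mul_neg_one, neg_smul]
  congr 3
  funext l
  rw [bl_len, bl_eq_dl])

theorem WT_congr {n : ℕ} {f g : List M → ℝ}
    (h : ∀ l, l.length = n + 1 → PS.SmL A ε l → f l = g l) :
    WT π ρ A X ε n f = WT π ρ A X ε n g := HT.ext (by
  rw [WT_val, WT_val]
  congr 1
  refine V1.cst_congr fun l hl => ?_
  by_cases h1 : l.length = n + 1
  · rw [h l h1 hl]
  · rw [ind_mul_len _ _ _ h1, ind_mul_len _ _ _ h1])

theorem pullHom_WT {Φ : MP E' M' → MP E M} (hs : Sq Φ)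
    (hΦ : (DT π' ρ' A' X' ε').Map (DT π ρ A X ε) Φ) {ψ : M' → M} (hψ : ∀ p, (Φ p).2 = p.2.map ψ)
    (n : ℕ) (f : List M → ℝ) :
    (pullHom hs hΦ).f (WT π ρ A X ε n f) = WT π' ρ' A' X' ε' n (fun l => f (l.map ψ)) :=
  HT.ext (by
    rw [pullHom_val, WT_val, WT_val]
    refine (map_smul (Form.pullA Φ hΦ) _ _).trans ?_
    congr 1
    refine pull_cst hs hΦ _ _ fun p => ?_
    rw [hψ, ind, ind, List.length_map])

theorem WT_mul {p q : ℕ} (f g : List M → ℝ) :
    WT π ρ A X ε p f * WT π ρ A X ε q g =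
      WT π ρ A X ε (p + q) (fun l => f (l.take (p + 1)) * g (l.drop p)) := HT.ext (by
  rw [HT.val_mul, WT_val, WT_val, WT_val, star_smul_left, star_smul_right, smul_smul, pow_add,
    star_cst_cst (tdg_cstI p f) (tdg_cstI q g).zero]
  congr 2
  funext l
  by_cases h : l.length = p + q + 1
  · rw [ind, ind, ind, if_pos h, if_pos (by rw [List.length_take]; omega),
      if_pos (by rw [List.length_drop]; omega)]
    ring
  · rw [show ind (p + q + 1) l = 0 from if_neg h, zero_mul]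
    by_cases h1 : (l.take (p + 1)).length = p + 1
    · rw [show ind (q + 1) (l.drop p) = 0 from if_neg (by
        rw [List.length_drop]; rw [List.length_take] at h1; omega)]
      ring
    · rw [show ind (p + 1) (l.take (p + 1)) = 0 from if_neg h1]
      ring)

theorem WT_one : WT π ρ A X ε 0 (fun _ => 1) = 1 := HT.ext (by
  rw [WT_val, pow_zero, one_smul, HT.val_one, uno]
  congr 1
  funext l
  rw [mul_one])

/-! ### Germs -/

variable (π ρ A X) in
/-- **the germs of the functions of the lists** -/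
def WD (n : ℕ) : (List M → ℝ) →ₗ[ℝ] HD π ρ A X :=
  (germD π ρ A X one_pos).toLinearMap ∘ₗ WT π ρ A X 1 n

theorem resD_WT {ε ε' : ℝ} (h : ε ≤ ε') (n : ℕ) (f : List M → ℝ) :
    (resD h).f (WT π ρ A X ε' n f) = WT π ρ A X ε n f := by
  refine (pullHom_WT (ψ := id) Sq.id (map_mono Subset.rfl Subset.rfl h)
    (fun p => by simp) n f).trans ?_
  congr 1
  funext l
  rw [List.map_id]

theorem germD_WT {ε : ℝ} (h : 0 < ε) (n : ℕ) (f : List M → ℝ) :
    germD π ρ A X h (WT π ρ A X ε n f) = WD π ρ A X n f := by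
  change _ = germD π ρ A X one_pos (WT π ρ A X 1 n f)
  rw [← germD_res (lt_min h one_pos) h (min_le_left _ _),
    ← germD_res (lt_min h one_pos) one_pos (min_le_right _ _), resD_WT, resD_WT]

theorem WD_mem (n : ℕ) (f : List M → ℝ) : WD π ρ A X n f ∈ (hD π ρ A X).deg n :=
  germD_mem_deg _ (WT_mem n f)

theorem WD_d (n : ℕ) (f : List M → ℝ) :
    (hD π ρ A X).d (WD π ρ A X n f) = WD π ρ A X (n + 1) (Sl.dl f) := by
  change germD π ρ A X one_pos ((hN π ρ A X 1).d (WT π ρ A X 1 n f)) = _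
  rw [WT_d]
  rfl

theorem WD_congr {n : ℕ} {f g : List M → ℝ}
    (h : ∃ ε > 0, ∀ l, l.length = n + 1 → PS.SmL A ε l → f l = g l) :
    WD π ρ A X n f = WD π ρ A X n g := by
  obtain ⟨ε, hε, h⟩ := h
  rw [← germD_WT hε, ← germD_WT hε, WT_congr h]

theorem pullD_WD {Φ : MP E' M' → MP E M} (hs : Sq Φ)
    (hΦ : ∀ ε, 0 < ε → (DT π' ρ' A' X' ε).Map (DT π ρ A X ε) Φ) {ψ : M' → M}
    (hψ : ∀ p, (Φ p).2 = p.2.map ψ) (n : ℕ) (f : List M → ℝ) :
    (pullD hs hΦ).f (WD π ρ A X n f) = WD π' ρ' A' X' n (fun l => f (l.map ψ)) := by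
  refine (pullD_germ hs hΦ one_pos _).trans ?_
  rw [pullHom_WT hs (hΦ 1 one_pos) hψ]
  rfl

theorem WD_mul {p q : ℕ} (f g : List M → ℝ) :
    WD π ρ A X p f * WD π ρ A X q g =
      WD π ρ A X (p + q) (fun l => f (l.take (p + 1)) * g (l.drop p)) := by
  refine (map_mul (germD π ρ A X one_pos) _ _).symm.trans ?_
  rw [WT_mul]
  rfl

theorem WD_one : WD π ρ A X 0 (fun _ => 1) = 1 := by
  refine Eq.trans ?_ (map_one (germD π ρ A X one_pos))
  rw [← WT_one]
  rfl

variable (π ρ A X) in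
theorem WD_exact {n : ℕ} {f : List M → ℝ} (h : ExL A n f) :
    WD π ρ A X n f ∈ (hD π ρ A X).B n := by
  obtain ⟨g, hg, ε, hε, h⟩ := h
  cases n with
  | zero =>
    have h1 : WD π ρ A X 0 f = WD π ρ A X 0 0 := by
      refine WD_congr ⟨ε, hε, fun l hl hs => ?_⟩
      rw [h l hl hs, show g = fun _ => 0 from funext (hg rfl), PS.dl_zero_fun]
      rfl
    rw [h1, map_zero]
    exact Submodule.zero_mem _
  | succ n =>
    have h1 : WD π ρ A X (n + 1) f = WD π ρ A X (n + 1) (Sl.dl g) := WD_congr ⟨ε, hε, h⟩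
    rw [h1, ← WD_d]
    exact ⟨_, WD_mem n g, rfl⟩

/-! ### The comparison -/

variable {Y : Type} [PseudoMetricSpace Y] {r : Y → N} {A : Set Y}

theorem WT_surj (hr : ∀ x x', dist (r x) (r x') ≤ dist x x') {n : ℕ}
    {z : HT (id : N → N) r A univ ε} (hz : z ∈ (hN (id : N → N) r A univ ε).Z n) :
    ∃ f : List Y → ℝ, (∀ l, l.length ≠ n + 1 → f l = 0) ∧
      (∀ l, PS.SmL A ε l → Sl.dl f l = 0) ∧ z - WT id r A univ ε n f ∈
        (hN (id : N → N) r A univ ε).B n := by
  obtain ⟨h1, h2⟩ := hz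
  have h3 : D z.val = 0 := by
    have h4 : ((hN (id : N → N) r A univ ε).d z).val = 0 := by
      rw [show (hN (id : N → N) r A univ ε).d z = 0 from h2]
      rfl
    rw [hN_d, neg_eq_zero] at h4
    exact h4
  obtain ⟨f, hf, hc, b, hb, e⟩ := p1_surj hr (show TDg (n + 1) z.val from h1) h3
  have hf' : ∀ l, l.length ≠ n + 1 → ((-1 : ℝ) ^ n • f) l = 0 := fun l hl => by
    rw [Pi.smul_apply, hf l hl, smul_zero]
  have e1 : (z - WT id r A univ ε n ((-1 : ℝ) ^ n • f)).val = D b := by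
    rw [HT.val_sub, WT_val' hf', e]
    have e2 : (cst ((-1 : ℝ) ^ n • f) : Form (DT (id : N → N) r A univ ε)) =
        (-1 : ℝ) ^ n • cst f := by
      rw [← V1.cst_smul]
      rfl
    rw [e2, smul_smul, ← pow_add, Even.neg_one_pow ⟨n, rfl⟩, one_smul]
    abel
  refine ⟨(-1 : ℝ) ^ n • f, hf', fun l hl => ?_, ?_⟩
  · rw [← bl_eq_dl]
    have h5 : bl ((-1 : ℝ) ^ n • f) l = (-1 : ℝ) ^ n • bl f l :=
      V1.bl_smul ((-1 : ℝ) ^ n) f l
    rw [h5, bl_eq_dl, hc l hl, smul_zero]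
  · cases n with
    | zero =>
      refine (NDga.mem_B_zero _).2 (HT.ext ?_)
      rw [e1, hb.eq_zero, D_zero]
      rfl
    | succ n =>
      refine (NDga.mem_B_succ _).2 ⟨HT.mk ε (-b) (tdg_neg hb).zero, tdg_neg hb, HT.ext ?_⟩
      rw [hN_d, HT.mk_val, e1, D_neg, neg_neg]

/-- **list cochains in the hybrid dga over a map which does not increase distances** -/
def wD (hr : ∀ x x', dist (r x) (r x') ≤ dist x x') :
    NWData (hD (id : N → N) r A univ) A where
  W := WD id r A univ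
  mem := WD_mem
  d := WD_d
  congr _ _ _ h := WD_congr h
  surj n z hz := by
    obtain ⟨ε, hε, -, w, hw, rfl⟩ := exists_ZD hz one_pos
    obtain ⟨f, h1, h2, h3⟩ := WT_surj hr hw
    refine ⟨f, ⟨ε, hε, fun l _ hl => h2 l hl⟩, ?_⟩
    rw [← germD_WT hε, ← map_sub]
    exact germD_mem_B hε h3

/-- **injectivity** -/
theorem WD_inj (hr : ∀ x x', dist (r x) (r x') ≤ dist x x') {n : ℕ} {f : List Y → ℝ}
    (h : WD id r A (univ : Set N) n f ∈ (hD (id : N → N) r A univ).B n) : ExL A n f := by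
  obtain ⟨ε, h1, hε, h2⟩ := mem_BD.1 (show germD id r A univ one_pos (WT id r A univ 1 n f) ∈
    (hD (id : N → N) r A univ).B n from h)
  rw [resD_WT] at h2
  have hc : ∀ (b : Form (DT (id : N → N) r A univ ε)),
      (WT id r A univ ε n f).val = D b → (cst (fun l => ind (n + 1) l * f l) :
        Form (DT (id : N → N) r A univ ε)) = D ((-1 : ℝ) ^ n • b) := by
    intro b hb
    rw [D_smul, ← hb, WT_val, smul_smul, ← pow_add, Even.neg_one_pow ⟨n, rfl⟩, one_smul]
  cases n with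
  | zero =>
    have h3 := (NDga.mem_B_zero _).1 h2
    refine ⟨fun _ => 0, fun _ _ => rfl, ε, hε, fun l hl hs => ?_⟩
    rw [PS.dl_zero_fun]
    have h4 := hc 0 (by rw [h3, D_zero]; rfl)
    have h5 := p1_inj_zero hr (tdg_smul _ (tdg_zero 0)) h4 hs (by
      intro h6
      rw [h6] at hl
      simp at hl)
    rw [ind, if_pos hl, one_mul] at h5
    exact h5
  | succ n =>
    obtain ⟨b, hb, h3⟩ := (NDga.mem_B_succ _).1 h2
    have h4 := hc (-b.val) (by rw [← h3, hN_d, D_neg])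
    obtain ⟨g, hg, h5⟩ := p1_inj hr (ind_mul_len (n + 2) f) (tdg_smul _ (tdg_neg hb)) h4
    refine ⟨g, fun h => absurd h (by omega), ε, hε, fun l hl hs => ?_⟩
    rw [← h5 l hs, ind, if_pos hl, one_mul]

theorem WD_B_iff (hr : ∀ x x', dist (r x) (r x') ≤ dist x x') {n : ℕ} {f : List Y → ℝ} :
    WD id r A (univ : Set N) n f ∈ (hD (id : N → N) r A univ).B n ↔ ExL A n f :=
  ⟨WD_inj hr, WD_exact _ _ _ _⟩

/-- the germ of a function of lists is closed iff the function is a cocycle -/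
theorem WD_Z_iff (hr : ∀ x x', dist (r x) (r x') ≤ dist x x') {n : ℕ} {f : List Y → ℝ} :
    WD id r A (univ : Set N) n f ∈ (hD (id : N → N) r A univ).Z n ↔ CocL A n f := by
  constructor
  · rintro ⟨-, h⟩
    have h1 : germD id r A univ one_pos (WT id r A (univ : Set N) 1 (n + 1) (Sl.dl f)) = 0 := by
      have h2 : (hD (id : N → N) r A univ).d (WD id r A univ n f) = 0 := h
      rw [WD_d] at h2
      exact h2
    obtain ⟨ε, h2, hε, h3⟩ := germD_eq_zero.1 h1
    rw [resD_WT] at h3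
    refine ⟨ε, hε, fun l hl hs => ?_⟩
    have h4 : (cst (fun l => ind (n + 2) l * Sl.dl f l) :
        Form (DT (id : N → N) r A univ ε)) = 0 := by
      have h5 := congrArg HT.val h3
      rw [WT_val, HT.val_zero] at h5
      exact (smul_eq_zero.1 h5).resolve_left (pow_ne_zero _ (by norm_num))
    have h6 := V1.eq_zero_of_cst (con_univ hr) h4 hs (by
      intro h6
      rw [h6] at hl
      simp at hl)
    rw [ind, if_pos hl, one_mul] at h6
    exact h6
  · rintro ⟨ε, hε, h⟩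
    refine ⟨WD_mem n f, ?_⟩
    change (hD (id : N → N) r A univ).d (WD id r A univ n f) = 0
    rw [WD_d, WD_congr (g := 0) ⟨ε, hε, fun l hl hs => h l hl hs⟩, map_zero]

end

end Vale.Agent.P216.H929V
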