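import Vale.Agent.P216.H929V.HW
import Vale.Agent.P216.H311.PathSp

/-!
# P216-V: `1 ≠ 0` in the hybrid dga
-/

set_option linter.all false

open Set Filter Topology BoundedContinuousFunction

namespace Vale.Agent.P216.H929V

open Vale.Agent.P231.Fm Vale.Agent.P231.WA V1 V609 H285V

noncomputable section

variable {E M N : Type} [PseudoMetricSpace E] [PseudoMetricSpace M] [PseudoMetricSpace N]
variable {π : E → N} {ρ : M → N} {A : Set M} {X : Set E} {ε : ℝ} {κ : M → E}

theorem one_ne_T (hκ : Con π ρ A X κ) {a : M} (ha : a ∈ A) (hε : 0 < ε) :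
    (1 : HT π ρ A X ε) ≠ 0 := by
  intro h
  have h1 : (cst (ind 1) : Form (DT π ρ A X ε)) = 0 := congrArg HT.val h
  have h2 : PS.SmL A ε [a] := by
    refine ⟨fun x hx => ?_, fun x hx y hy => ?_⟩
    · rw [List.mem_singleton.1 hx]
      exact ha
    · rw [List.mem_singleton.1 hx, List.mem_singleton.1 hy, dist_self]
      exact hε
  have h3 := V1.eq_zero_of_cst hκ h1 h2 (by simp)
  rw [ind, if_pos (show ([a] : List M).length = 1 from rfl)] at h3
  exact one_ne_zero h3

/-- **the hybrid dga is not zero** -/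
theorem one_ne (hκ : Con π ρ A X κ) {a : M} (ha : a ∈ A) : (1 : HD π ρ A X) ≠ 0 := by
  intro h
  have h1 : germD π ρ A X one_pos (1 : HT π ρ A X 1) = 0 := (map_one _).trans h
  obtain ⟨δ, h2, hδ, h3⟩ := germD_eq_zero.1 h1
  rw [map_one] at h3
  exact one_ne_T hκ ha hδ h3

/-- constant paths -/
theorem const_mem_P {M : Type} [MetricSpace M] (b : M) (t : ℝ) :
    BoundedContinuousFunction.const ℝ b ∈ PS.P b b t :=
  ⟨fun u v => by simp, fun _ _ => rfl, fun _ _ => rfl⟩

/-- **the based loops**, at every level -/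
theorem one_ne_Om {M : Type} [MetricSpace M] (b : M) (t : ℝ) :
    (1 : HD (id : M → M) (fun w : ℝ →ᵇ M => w 0) (PS.P b b t) ({b} : Set M)) ≠ 0 :=
  one_ne (con_self (fun w hw => by
    show w 0 ∈ ({b} : Set M)
    exact hw.2.1 0 le_rfl) (fun w w' => BoundedContinuousFunction.dist_coe_le_dist 0))
    (const_mem_P b t)

end

end Vale.Agent.P216.H929V
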