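import Vale.Agent.P216.V1.Cone

/-!
# P216-V, H-EX: the rows of the double complex

`low`: an element of total degree `n + 1` whose differential has no part of length `≤ n + 1` is,
up to a coboundary, a function of the lists of length `n + 1`.
-/

set_option linter.all false

open Set Filter Topology
open scoped ContDiff

namespace Vale.Agent.P216.H929V

open Vale.Agent.P231.Fm Vale.Agent.P231.WA V1

noncomputable section

variable {E M N : Type} [PseudoMetricSpace E] [PseudoMetricSpace M] [PseudoMetricSpace N]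
variable {π : E → N} {ρ : M → N} {A : Set M} {X : Set E} {ε : ℝ} {κ : M → E}

/-! ### Total degrees -/

theorem tdg_zero (m : ℕ) : TDg m (0 : Form (DT π ρ A X ε)) :=
  ⟨len_zero _, fun p q _ => by rw [len_zero]; exact Form.IsDeg.zero _, fun p _ => len_zero _⟩

theorem tdg_add {m : ℕ} {v w : Form (DT π ρ A X ε)} (hv : TDg m v) (hw : TDg m w) :
    TDg m (v + w) :=
  ⟨by rw [len_add, hv.zero, hw.zero, add_zero],
    fun p q h => by rw [len_add]; exact (hv.deg p q h).add (hw.deg p q h),
    fun p h => by rw [len_add, hv.top p h, hw.top p h, add_zero]⟩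

theorem tdg_smul {m : ℕ} (c : ℝ) {v : Form (DT π ρ A X ε)} (hv : TDg m v) :
    TDg m (c • v) :=
  ⟨by rw [len_smul, hv.zero, smul_zero],
    fun p q h => by rw [len_smul]; exact (hv.deg p q h).smul c,
    fun p h => by rw [len_smul, hv.top p h, smul_zero]⟩

theorem tdg_neg {m : ℕ} {v : Form (DT π ρ A X ε)} (hv : TDg m v) : TDg m (-v) := by
  rw [← neg_one_smul ℝ]
  exact tdg_smul _ hv

theorem tdg_sub {m : ℕ} {v w : Form (DT π ρ A X ε)} (hv : TDg m v) (hw : TDg m w) :
    TDg m (v - w) := by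
  rw [sub_eq_add_neg]
  exact tdg_add hv (tdg_neg hw)

theorem tdg_single {m p q : ℕ} {w : Form (DT π ρ A X ε)} (hp : 1 ≤ p) (hm : p + q = m)
    (h1 : len p w = w) (h2 : Form.IsDeg q w) : TDg m w := by
  refine ⟨?_, fun p' q' h => ?_, fun p' h => ?_⟩
  · rw [← h1, len_len, if_neg (by omega)]
  · by_cases h3 : p' = p
    · subst h3
      have : q' = q := by omega
      subst this
      rwa [h1]
    · rw [← h1, len_len, if_neg h3]
      exact Form.IsDeg.zero _
  · rw [← h1, len_len, if_neg (by omega)]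

theorem len_sgn (p : ℕ) (w : Form (DT π ρ A X ε)) :
    len p (sc sgn w) = (-1 : ℝ) ^ p • len p w :=
  ext_T fun V _ _ _ u s F h => by
    rw [len_val _ _ h, sc_val _ _ h, Form.smul_val, len_val _ _ h, sgn]
    split_ifs with hl
    · rw [hl]
    · rw [smul_zero]

theorem len_D (p : ℕ) (w : Form (DT π ρ A X ε)) :
    len (p + 1) (D w) = del (len p w) + (-1 : ℝ) ^ (p + 1) • (len (p + 1) w).d := by
  rw [D, len_add, ← del_len, len_sgn, d_len]

theorem len_D_zero (w : Form (DT π ρ A X ε)) : len 0 (D w) = (len 0 w).d := by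
  rw [D, len_add, len_zero_del, zero_add, len_sgn, pow_zero, one_smul, d_len]

theorem isDeg_del {q : ℕ} {w : Form (DT π ρ A X ε)} (hw : Form.IsDeg q w) :
    Form.IsDeg q (del w) := by
  have h : Form.part q w = w := hw
  change Form.part q (del w) = del w
  rw [part_del, h]

theorem isDeg_d {q : ℕ} {w : Form (DT π ρ A X ε)} (hw : Form.IsDeg q w) :
    Form.IsDeg (q + 1) w.d := hw.d

theorem tdg_D {m : ℕ} {w : Form (DT π ρ A X ε)} (h : TDg m w) : TDg (m + 1) (D w) := by
  refine ⟨by rw [len_D_zero, h.zero, Form.d_zero], fun p q hpq => ?_, fun p hp => ?_⟩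
  · rcases p with _ | p
    · rw [len_D_zero, h.zero, Form.d_zero]
      exact Form.IsDeg.zero _
    · rw [len_D]
      refine (isDeg_del (h.deg p q (by omega))).add (Form.IsDeg.smul _ ?_)
      rcases q with _ | q
      · rw [h.top (p + 1) (by omega), Form.d_zero]
        exact Form.IsDeg.zero _
      · exact isDeg_d (h.deg (p + 1) q (by omega))
  · obtain ⟨p, rfl⟩ : ∃ p', p = p' + 1 := ⟨p - 1, by omega⟩
    rw [len_D, h.top p (by omega), h.top (p + 1) (by omega), Form.d_zero, del_zero, smul_zero,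
      add_zero]

theorem len_h_self (hκ : Con π ρ A X κ) {p : ℕ} {v : Form (DT π ρ A X ε)} (h : len p v = v) :
    len p (V1.h hκ v) = V1.h hκ v := by
  rw [← h_len, h]

/-- the parts of `D` of an element with a single part -/
theorem len_D_ne {p k : ℕ} {w : Form (DT π ρ A X ε)} (h : len k w = w) (h1 : p ≠ k)
    (h2 : p ≠ k + 1) : len p (D w) = 0 := by
  rcases p with _ | p
  · rw [len_D_zero, ← h, len_len, if_neg h1, Form.d_zero]
  · rw [len_D]
    have e1 : len p w = 0 := by rw [← h, len_len, if_neg (by omega)]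
    have e2 : len (p + 1) w = 0 := by rw [← h, len_len, if_neg h1]
    rw [e1, e2, del_zero, Form.d_zero, smul_zero, add_zero]

theorem len_D_self {k : ℕ} (hk : 1 ≤ k) {w : Form (DT π ρ A X ε)} (h : len k w = w) :
    len k (D w) = (-1 : ℝ) ^ k • w.d := by
  obtain ⟨k, rfl⟩ : ∃ k', k = k' + 1 := ⟨k - 1, by omega⟩
  rw [len_D, h]
  have e1 : len k w = 0 := by rw [← h, len_len, if_neg (by omega)]
  rw [e1, del_zero, zero_add]

theorem smul_pow_cancel {w : Form (DT π ρ A X ε)} (k : ℕ) (h : (-1 : ℝ) ^ k • w = 0) : w = 0 :=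
  (smul_eq_zero.1 h).resolve_left (pow_ne_zero _ (by norm_num))

/-- the lowest part is closed -/
theorem d_low {k : ℕ} (hk : 1 ≤ k) {w : Form (DT π ρ A X ε)} (hD : len k (D w) = 0)
    (h0 : ∀ p < k, len p w = 0) : (len k w).d = 0 := by
  obtain ⟨k, rfl⟩ : ∃ k', k = k' + 1 := ⟨k - 1, by omega⟩
  rw [len_D, h0 k (by omega), del_zero, zero_add] at hD
  exact smul_pow_cancel _ hD

theorem low_aux (hκ : Con π ρ A X κ) {n : ℕ} {w : Form (DT π ρ A X ε)} (hw : TDg (n + 1) w)
    (hD : ∀ p, p ≤ n + 1 → len p (D w) = 0) (k : ℕ) (h1 : 1 ≤ k) (hk : k ≤ n + 1) :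
    ∃ b, TDg n b ∧ ∀ p < k, len p (w - D b) = 0 := by
  induction k, h1 using Nat.le_induction with
  | base =>
    refine ⟨0, tdg_zero _, fun p hp => ?_⟩
    have : p = 0 := by omega
    subst this
    rw [D_zero, sub_zero]
    exact hw.zero
  | succ k h1 ih =>
    obtain ⟨b, hb, hb0⟩ := ih (by omega)
    have hw' : TDg (n + 1) (w - D b) := tdg_sub hw (tdg_D hb)
    obtain ⟨q, hq⟩ : ∃ q, k + (q + 1) = n + 1 := ⟨n - k, by omega⟩
    set v := len k (w - D b) with hv
    have hvv : len k v = v := by rw [hv, len_len, if_pos rfl]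
    have hvd : Form.IsDeg (q + 1) v := hw'.deg k (q + 1) hq
    have hvc : v.d = 0 := by
      refine d_low h1 ?_ hb0
      rw [D_sub, D_D, sub_zero]
      exact hD k (by omega)
    have hv0 : len 0 v = 0 := by rw [← hvv, len_len, if_neg (by omega)]
    have hh := d_h_of_closed hκ hvd hv0 hvc
    have hlh := len_h_self hκ hvv
    refine ⟨b - (-1 : ℝ) ^ k • V1.h hκ v, tdg_sub hb (tdg_smul _ (tdg_single h1 (by omega) hlh
      (isDeg_h hκ hvd))), fun p hp => ?_⟩
    have e1 : w - D (b - (-1 : ℝ) ^ k • V1.h hκ v) = (w - D b) + (-1 : ℝ) ^ k • D (V1.h hκ v) := by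
      rw [D_sub, D_smul]
      abel
    rw [e1, len_add, len_smul]
    rcases Nat.lt_succ_iff_lt_or_eq.1 hp with hp | rfl
    · rw [hb0 p hp, len_D_ne hlh (by omega) (by omega), smul_zero, add_zero]
    · rw [len_D_self h1 hlh, smul_smul, ← mul_pow, neg_one_mul, neg_neg, one_pow, one_smul, hh,
        ← hv, add_neg_cancel]

/-- **elements move to the lists** -/
theorem low (hκ : Con π ρ A X κ) {n : ℕ} {w : Form (DT π ρ A X ε)} (hw : TDg (n + 1) w)
    (hD : ∀ p, p ≤ n + 1 → len p (D w) = 0) :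
    ∃ b, TDg n b ∧ ∃ f : List M → ℝ, (∀ l, l.length ≠ n + 1 → f l = 0) ∧ w = cst f + D b := by
  obtain ⟨b, hb, hb0⟩ := low_aux hκ hw hD (n + 1) (by omega) le_rfl
  have hw' : TDg (n + 1) (w - D b) := tdg_sub hw (tdg_D hb)
  have e1 : len (n + 1) (w - D b) = w - D b := by
    refine ext_len fun p => ?_
    rw [len_len]
    split_ifs with h
    · rw [h]
    · rcases lt_or_gt_of_ne h with h | h
      · rw [hb0 p h]
      · rw [hw'.top p h]
  have e2 : Form.IsDeg 0 (w - D b) := by
    rw [← e1]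
    exact hw'.deg (n + 1) 0 (by omega)
  have e3 : (w - D b).d = 0 := by
    rw [← e1]
    refine d_low (by omega) ?_ hb0
    rw [D_sub, D_D, sub_zero]
    exact hD (n + 1) le_rfl
  have e4 := eq_cst_of_closed hκ e2 hw'.zero e3
  refine ⟨b, hb, fun l => ind (n + 1) l * vtx κ (w - D b) l, fun l hl => ?_, ?_⟩
  · change (if l.length = n + 1 then (1 : ℝ) else 0) * _ = 0
    rw [if_neg hl, zero_mul]
  · have e5 : (cst (fun l => ind (n + 1) l * vtx κ (w - D b) l) : Form (DT π ρ A X ε)) =
        len (n + 1) (cst (vtx κ (w - D b))) :=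
      ext_T fun V _ _ _ u s F h => by
        rw [len_val _ _ h, cst_val _ h, cst_val _ h, ind]
        split_ifs
        · rw [one_mul]
        · rw [zero_mul, map_zero]
    rw [e5, ← e4, e1]
    abel

/-! ### Functions of the list which vanish -/

theorem supp_vertex (hκ : Con π ρ A X κ) {x : M} {l : List M} (hl : PS.SmL A ε (x :: l)) :
    Supp π ρ A X ε {κ x} (fun _ : ℝ => ((Finsupp.single (κ x) 1, x :: l) : MP E M)) 0 := by
  classical
  have h0 : 0 < ε := (dist_self x).symm.trans_lt (hl.2 x List.mem_cons_self x List.mem_cons_self)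
  refine ⟨⟨?_, ?_⟩, hl, ?_, Eventually.of_forall fun _ => rfl, ?_, ?_, ?_⟩
  · intro y hy
    rw [Finset.mem_singleton.1 hy]
    exact hκ.mem x (hl.1 x List.mem_cons_self)
  · intro y hy z hz
    rw [Finset.mem_singleton.1 hy, Finset.mem_singleton.1 hz, dist_self]
    exact h0
  · intro z hz w hw
    rw [Finset.mem_singleton.1 hw, hκ.fib]
    exact (hκ.lipR z x).trans_lt (hl.2 z hz x List.mem_cons_self)
  · refine Eventually.of_forall fun _ y hy => ?_
    exact Finsupp.single_eq_of_ne (fun h => hy (Finset.mem_singleton.2 h))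
  · refine Eventually.of_forall fun _ => ?_
    rw [Finset.sum_singleton, Finsupp.single_eq_same]
  · intro y
    exact Sm.of_contDiff contDiff_const 0

/-- a function of the list which vanishes as a form vanishes on the small lists -/
theorem eq_zero_of_cst (hκ : Con π ρ A X κ) {c : List M → ℝ}
    (hc : (cst c : Form (DT π ρ A X ε)) = 0) {l : List M} (hl : PS.SmL A ε l) (h0 : l ≠ []) :
    c l = 0 := by
  obtain ⟨x, l, rfl⟩ : ∃ x l', l = x :: l' := by
    cases l with
    | nil => exact absurd rfl h0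
    | cons x l => exact ⟨x, l, rfl⟩
  have h1 := cst_val (π := π) (ρ := ρ) (A := A) (X := X) (ε := ε) c (supp_vertex hκ hl)
  rw [hc, Form.zero_val] at h1
  have h2 := congrArg aug h1
  rw [map_zero] at h2
  have h3 : aug (algebraMap ℝ (Lam ℝ) (c (x :: l))) = c (x :: l) := AlgHom.commutes _ _
  rw [h3] at h2
  exact h2.symm

theorem cst_sub (c c' : List M → ℝ) :
    (cst (fun l => c l - c' l) : Form (DT π ρ A X ε)) = cst c - cst c' :=
  ext_T fun V _ _ _ u s F h => by
    rw [Form.sub_val, cst_val _ h, cst_val _ h, cst_val _ h, map_sub]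

/-- functions which agree on the small lists give the same form -/
theorem cst_congr {c c' : List M → ℝ} (h : ∀ l, PS.SmL A ε l → c l = c' l) :
    (cst c : Form (DT π ρ A X ε)) = cst c' :=
  ext_T fun V _ _ _ u s F hF => by
    rw [cst_val _ hF, cst_val _ hF, h _ hF.smA]

/-- **surjectivity** -/
theorem rows_surj (hκ : Con π ρ A X κ) {n : ℕ} {w : Form (DT π ρ A X ε)} (hw : TDg (n + 1) w)
    (hD : D w = 0) : ∃ b, TDg n b ∧ ∃ f : List M → ℝ, (∀ l, l.length ≠ n + 1 → f l = 0) ∧
      (∀ l, PS.SmL A ε l → Sl.dl f l = 0) ∧ w = cst f + D b := by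
  obtain ⟨b, hb, f, hf, hw'⟩ := low hκ hw fun p _ => by rw [hD, len_zero]
  refine ⟨b, hb, f, hf, fun l hl => ?_, hw'⟩
  rcases eq_or_ne l [] with rfl | h0
  · rw [← bl_eq_dl, bl_nil]
  · have h1 : (cst (bl f) : Form (DT π ρ A X ε)) = 0 := by
      rw [← D_cst]
      have : D w = D (cst f) + D (D b) := by rw [hw', D_add]
      rw [hD, D_D, add_zero] at this
      exact this.symm
    rw [← bl_eq_dl]
    exact eq_zero_of_cst hκ h1 hl h0

/-- **injectivity** -/
theorem rows_inj (hκ : Con π ρ A X κ) {n : ℕ} {b : Form (DT π ρ A X ε)} (hb : TDg n b)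
    {f : List M → ℝ} (hf : ∀ l, l.length ≠ n + 1 → f l = 0) (hw : cst f = D b) :
    ∃ g : List M → ℝ, (n = 0 → ∀ l, g l = 0) ∧ ∀ l, PS.SmL A ε l → l ≠ [] → f l = Sl.dl g l := by
  rcases n with _ | n
  · have h1 : b = 0 := ext_len fun p => by
      rw [len_zero]
      rcases p with _ | p
      · exact hb.zero
      · exact hb.top _ (by omega)
    rw [h1, D_zero] at hw
    refine ⟨fun _ => 0, fun _ _ => rfl, fun l hl h0 => ?_⟩
    rw [PS.dl_zero_fun]
    exact eq_zero_of_cst hκ hw hl h0
  · have h1 : ∀ p, p ≤ n + 1 → len p (D b) = 0 := fun p hp => by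
      rw [← hw]
      refine ext_T fun V _ _ _ u s F h => ?_
      rw [len_val _ _ h, cst_val _ h, Form.zero_val]
      split_ifs with h2
      · rw [hf _ (by omega), map_zero]
      · rfl
    obtain ⟨b', hb', g, hg, hbg⟩ := low hκ hb h1
    have h2 : (cst f : Form (DT π ρ A X ε)) = cst (bl g) := by
      rw [hw, hbg, D_add, D_D, add_zero, D_cst]
    refine ⟨g, fun h => absurd h (by omega), fun l hl h0 => ?_⟩
    have h3 : (cst (fun l => f l - bl g l) : Form (DT π ρ A X ε)) = 0 := by
      rw [cst_sub, h2, sub_self]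
    have h4 := eq_zero_of_cst hκ h3 hl h0
    rw [← bl_eq_dl]
    exact sub_eq_zero.1 h4

end

end Vale.Agent.P216.H929V
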